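import Vale.Agent.P305.Bdl.B1
import Vale.Agent.P305C.Vt

/-!
# The outer shell of the matching algorithm: the interface of a phase
-/

namespace Vale.Agent.P305O

open Vale.Agent.P305 Vale.Agent.P305E Vale.Agent.P305C

/-- Adjacency lists of a graph on `{0, …, n - 1}` with degrees at most three. -/
structure Adj3 (n : ℕ) (A : ℕ → ℕ → Prop) (adj : Arr (List ℕ)) : Prop where
  gr : Gr n A
  mem : ∀ u v, v ∈ adj.get u ↔ A u v
  nodup : ∀ u, (adj.get u).Nodup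
  deg : ∀ u, (adj.get u).length ≤ 3

/-- The partner function of an array (exposed vertices are fixed). -/
def pm (n : ℕ) (a : Arr ℕ) (v : ℕ) : ℕ := if v < n then a.get v else v

theorem pm_lt {n v : ℕ} (a : Arr ℕ) (h : v < n) : pm n a v = a.get v := if_pos h

theorem pm_ge {n v : ℕ} (a : Arr ℕ) (h : n ≤ v) : pm n a v = v := if_neg (by omega)

/-- The number of exposed vertices. -/
def ex (n : ℕ) (a : Arr ℕ) : ℕ := (exposed n (pm n a)).card

/-- Some matching leaves at least `K` vertices less exposed than `a`. -/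
def Gap (n : ℕ) (A : ℕ → ℕ → Prop) (a : Arr ℕ) (K : ℕ) : Prop :=
  ∃ m, Mat A m ∧ (exposed n m).card + K ≤ ex n a

/-- What a phase `ph b K n adj mt` achieves: if the matching `mt` can be improved by `K` exposed
vertices, then the result is a matching with `K / g b` exposed vertices less; in any case the
virtual time is at most `T b n K`. The shell calls it only for `K` a power of two. -/
structure PhaseOK (ph : ℕ → ℕ → ℕ → Arr (List ℕ) → Arr ℕ → M (Arr ℕ)) (c : ℕ) (g : ℕ → ℕ)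
    (T : ℕ → ℕ → ℕ → ℕ) : Prop where
  impl : Impl fun p : ℕ × ℕ × ℕ × Arr (List ℕ) × Arr ℕ =>
    ph p.1 p.2.1 p.2.2.1 p.2.2.2.1 p.2.2.2.2
  sub : ∀ a, Sub fun N => g (a * Nat.size N + a)
  spec : ∀ (B b j n : ℕ) (A : ℕ → ℕ → Prop) (adj : Arr (List ℕ)) (mt : Arr ℕ), Adj3 n A adj →
    Mat A (pm n mt) → n ≤ 2 ^ b → 2 ^ (c * (b + 1)) ≤ B → g b ≤ 2 ^ j → 2 ^ j ≤ n →
    Vt b B (ph b (2 ^ j) n adj mt) fun o s =>
      (Gap n A mt (2 ^ j) → Mat A (pm n o) ∧ g b * ex n o + 2 ^ j ≤ g b * ex n mt) ∧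
        s ≤ T b n (2 ^ j)

/-- The time of a phase is at most `(n + 1) * g b * ((n + 1) / K) ^ (p / q)`. -/
def PowCost (g : ℕ → ℕ) (p q : ℕ) (T : ℕ → ℕ → ℕ → ℕ) : Prop :=
  ∀ b n K W, n ≤ 2 ^ b → 1 ≤ K → K ≤ n → (n + 1) ^ p ≤ K ^ p * W ^ q → T b n K ≤ (n + 1) * g b * W

/-- `T n m = O((n + m + 1) ^ (x + ε))` for every `ε > 0`. -/
def PowTime (x : ℝ) (T : ℕ → ℕ → ℕ) : Prop :=
  ∀ ε : ℝ, 0 < ε → ∃ C : ℝ, ∀ n m : ℕ, (T n m : ℝ) ≤ C * ((n : ℝ) + m + 1) ^ (x + ε)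

end Vale.Agent.P305O
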