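import Vale.Agent.P305.Bdl.B2
import Vale.Agent.P305L.Interp

/-!
# The end game: augmenting searches until the matching is maximum
-/

namespace Vale.Agent.P305O

open Vale.Agent.P305 Vale.Agent.P305E Vale.Agent.P305L

/-- The interpreter, with a separate fuel for an outermost loop. -/
def interp' (bb : List ℕ → M (Arr ℕ)) (fu k : ℕ) : L1.Cmd → IS → M IS
  | .loop c p, x => loopM (fun x => if testB c x = true then
      interp bb fu p x >>= fun x' => pure (.inl x') else pure (.inr x)) k x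
  | q, x => interp bb fu q x

theorem interp'_eq (bb : List ℕ → M (Arr ℕ)) (fu : ℕ) (q : L1.Cmd) (x : IS) :
    interp' bb fu fu q x = interp bb fu q x := by
  cases q <;> rfl

/-- The interpreter follows runs without calls. -/
theorem interp'_tri {c : Cx} {bb : List ℕ → M (Arr ℕ)} {K fu : ℕ} {q : L1.Cmd} {s s' : L1.St}
    {t : ℕ} (h : L1.Ex (fun _ _ _ => False) 0 q s t s') : ∀ (x : IS) (V k : ℕ), toSt x = s →
    q.ok K V → s.Bdd V → V + t ≤ c.B → t < fu → t < k →
    Tri c (interp' bb fu k q x) fun x' t' => toSt x' = s' ∧ t' ≤ t ∧ s'.Bdd (V + t) := by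
  induction h with
  | blk l s =>
    rintro x V k rfl h1 h2 h3 - -
    refine (runB_tri l h1 h2 h3).mono ?_
    rintro x' _ ⟨a, -, rfl, b⟩
    exact ⟨a, Nat.zero_le _, a ▸ b⟩
  | add d y z s e =>
    rintro x V k rfl - h2 h3 - -
    have e' : x.1.get y + x.1.get z ≤ 0 := e
    simp only [interp', interp, Tri_bind, Tri_num, Tri_pure]
    exact ⟨by omega, rfl, by omega, L1.update_le (fun r => (h2.1 r).trans (by omega)) (by omega),
      fun j i => (h2.2 j i).trans (by omega)⟩
  | @seq p q s s' s'' t t' _ _ ih1 ih2 =>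
    rintro x V k rfl h1 h2 h3 h4 -
    have a := ih1 x V fu rfl h1.1 h2 (by omega) (by omega) (by omega)
    rw [interp'_eq] at a
    refine a.bind fun x' u ⟨b1, b2, b3⟩ => ?_
    have a' := ih2 x' (V + t) fu b1 (h1.2.mono (by omega)) b3 (by omega) (by omega) (by omega)
    rw [interp'_eq] at a'
    exact a'.mono fun x'' u' ⟨c1, c2, c3⟩ => ⟨c1, by omega, c3.mono (by omega)⟩
  | @iteTrue d p q s s' t hc _ ih =>
    rintro x V k rfl h1 h2 h3 h4 -
    have a := ih x V fu rfl h1.1 h2 (by omega) (by omega) (by omega)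
    rw [interp'_eq] at a
    simp only [interp', interp, if_pos ((testB_iff d x).2 hc)]
    exact a.mono fun x'' u' ⟨c1, c2, c3⟩ => ⟨c1, by omega, c3.mono (by omega)⟩
  | @iteFalse d p q s s' t hc _ ih =>
    rintro x V k rfl h1 h2 h3 h4 -
    have a := ih x V fu rfl h1.2 h2 (by omega) (by omega) (by omega)
    rw [interp'_eq] at a
    simp only [interp', interp, if_neg (fun e => hc ((testB_iff d x).1 e))]
    exact a.mono fun x'' u' ⟨c1, c2, c3⟩ => ⟨c1, by omega, c3.mono (by omega)⟩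
  | @loopDone d p s hc =>
    rintro x V k rfl h1 h2 h3 h4 h5
    obtain ⟨k, rfl⟩ : ∃ k', k = k' + 1 := ⟨k - 1, by omega⟩
    simp only [interp', loopM, if_neg (fun e => hc ((testB_iff d x).1 e)), Tri_bind, Tri_pure,
      Sum.elim_inr]
    exact ⟨trivial, by omega, h2.mono (by omega)⟩
  | @loopStep d p s s' s'' t t' hc _ _ ih1 ih2 =>
    rintro x V k rfl h1 h2 h3 h4 h5
    obtain ⟨k, rfl⟩ : ∃ k', k = k' + 1 := ⟨k - 1, by omega⟩
    have a := ih1 x V fu rfl h1 h2 (by omega) (by omega) (by omega)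
    rw [interp'_eq] at a
    simp only [interp', loopM, if_pos ((testB_iff d x).2 hc), Tri_bind, Tri_pure, Sum.elim_inl,
      Tri_tick]
    refine a.mono fun x' u ⟨b1, b2, b3⟩ => ?_
    exact (ih2 x' (V + t) k b1 (L1.Cmd.ok.mono h1 (by omega)) b3 (by omega) (by omega)
      (by omega)).mono fun x'' u' ⟨c1, c2, c3⟩ => ⟨c1, by omega, c3.mono (by omega)⟩
  | call _ e => exact e.elim

/-- Read the graph, augment, write the result. -/
def finC : L1.Cmd := .seq unpack (.seq augLoop cOut)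

theorem finC_ok : finC.ok 64 4 := by
  have := oddC_ok
  exact ⟨this.1, this.2.2⟩

/-- The end game on the input array `a` and the partner array `m`. -/
def finish (a m : Arr ℕ) : M (List ℕ) :=
  interp (fun _ => M.fail) (400 * (a.get 0 + a.get (a.get 0 + 1) + 2) ^ 3) finC
    (Arr.const 0, ((Arr.const (Arr.const 0)).set 0 a).set 40 m, []) >>= fun x =>
  rangeP (a.get 0) >>= fun r => mapP (fun v => (x.2.1.get 3).get v) r

@[fun_prop] theorem impl_finish : Impl fun p : Arr ℕ × Arr ℕ => finish p.1 p.2 := by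
  have hJ := impl_interp (ι := Arr ℕ) (bb := fun _ _ => M.fail) (by fun_prop)
    (fun a => 400 * (a.get 0 + a.get (a.get 0 + 1) + 2) ^ 3) finC
  refine Impl.bind ?_ (by fun_prop)
  exact Impl.comp (g := fun p : Arr ℕ × Arr ℕ =>
    (p.1, (Arr.const 0, ((Arr.const (Arr.const 0)).set 0 p.1).set 40 p.2, []))) hJ (by fun_prop)

theorem finish_tri {c : Cx} {n : ℕ} {G : SimpleGraph (Fin n)} (L : AdjLists G) {a m : Arr ℕ}
    {f : ℕ → ℕ} {g : ℕ} (ha : ∀ i, a.get i = L.encode.getD i 0) (hm : ∀ v, m.get v ≤ n)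
    (hf : Mat (natAdj G) f) (e : ∀ v < n, m.get v = f v)
    (hg : ∀ f', Mat (natAdj G) f' → (exposed n f).card ≤ (exposed n f').card + g)
    (hB : 500 * (n + 2 * G.edgeSet.ncard + 2) ^ 3 ≤ c.B) :
    Tri c (finish a m) fun out t =>
      (∃ M : G.Subgraph, IsMaximumMatching G M ∧ Represents (fun i => out.getD i 0) M) ∧
        t ≤ (g + 1) * (400 * ((Nat.log 2 n + 1) * (n + 2 * G.edgeSet.ncard + 1))) := by
  obtain ⟨k, hk⟩ : ∃ k, k = 2 * G.edgeSet.ncard := ⟨_, rfl⟩
  rw [← hk] at hB ⊢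
  have a0 : a.get 0 = n := by rw [ha, L.encode_zero]
  have a1 : a.get (n + 1) = k := by rw [ha, L.encode_off le_rfl, L.upTo_length, hk]
  obtain ⟨x, hx⟩ : ∃ x : IS, x = (Arr.const 0, ((Arr.const (Arr.const 0)).set 0 a).set 40 m, []) :=
    ⟨_, rfl⟩
  have x0 : (toSt x).a 0 = a.get := by simp [hx, toSt, Arr.get_set]
  have x40 : (toSt x).a 40 = m.get := by simp [hx, toSt]
  have hb : (toSt x).Bdd (n + k + 4) := by
    refine ⟨fun _ => by simp [hx, toSt], fun j i => ?_⟩
    have := L.encode_le i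
    have := hm i
    simp only [hx, toSt, Arr.get_set]
    split_ifs
    · omega
    · rw [ha]; omega
    · simp
  obtain ⟨s1, t1, e1, ht1, r10, r11, o1, b1, j1⟩ := unpack_spec (R := fun _ _ _ => False) (cap := 0)
    (toSt x) n k (by rw [x0, a0]) (by rw [x0, a1])
  have hn : s1.a 4 n = k := by rw [o1 n le_rfl, x0, a1]
  have hC : CSR n (natAdj G) (s1.a 4) (s1.a 5) :=
    csr_of_encode L (fun i hi => by rw [o1 i hi, x0, ha]) fun p hp => by
      rw [b1 p (by omega), x0, ha]
  obtain ⟨s3, t3, f', e3, ht3, hmax, f40, r30, -⟩ := augLoop_spec (R := fun _ _ _ => False)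
    (cap := 0) (g := min g n) (natAdj_gr G) s1 hC r10 r11 hf (fun f' h' => by
      have := hg f' h'
      have : (exposed n f).card ≤ n := (Finset.card_filter_le _ _).trans (by simp)
      omega) (fun v hv => by rw [j1 40 (by decide) (by decide), x40, e v hv])
  obtain ⟨s4, t4, e4, ht4, a43⟩ := cOut_spec (R := fun _ _ _ => False) (cap := 0) s3 r30
  obtain ⟨M, hM, hrep⟩ := maximum_of_isMax (f := s4.a 3) hmax fun v hv => by
    rw [a43 v hv, f40 v hv]
  rw [hn] at ht3
  obtain ⟨X, hX⟩ : ∃ X, X = (Nat.log 2 n + 1) * (n + k + 1) := ⟨_, rfl⟩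
  rw [← hX] at ht3 ⊢
  have y1 : n + k + 1 ≤ X := hX ▸ Nat.le_mul_of_pos_left _ (by omega)
  have y2 : X ≤ (n + k + 2) * (n + k + 2) := by
    have : Nat.log 2 n ≤ n := Nat.log_le_self 2 n
    exact hX ▸ Nat.mul_le_mul (by omega) (by omega)
  have y3 : (min g n + 1) * (300 * X) ≤ (g + 1) * (300 * X) := Nat.mul_le_mul_right _ (by omega)
  have y4 : (min g n + 1) * (300 * X) ≤ 300 * (n + k + 2) ^ 3 := by
    calc _ ≤ (n + k + 2) * (300 * ((n + k + 2) * (n + k + 2))) :=
          Nat.mul_le_mul (by omega) (by omega)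
      _ = _ := by ring
  have y5 : n + k + 2 ≤ (n + k + 2) ^ 3 := Nat.le_self_pow (by omega) _
  have := interp'_tri (c := c) (bb := fun _ => P305E.M.fail) (K := 64) (fu := 400 * (n + k + 2) ^ 3)
    (.seq e1 (.seq e3 e4)) x (n + k + 4) (400 * (n + k + 2) ^ 3) rfl (finC_ok.mono (by omega)) hb
    (by omega) (by omega) (by omega)
  rw [interp'_eq] at this
  simp only [finish, a0, a1, ← hx]
  refine this.bind fun x' t ⟨c1, c2, _⟩ => ?_
  simp only [Tri_bind, Tri_rangeP, Tri_mapP, List.length_range]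
  refine ⟨⟨M, hM, fun v => ?_⟩, by nlinarith⟩
  have : ((List.range n).map fun v => (x'.2.1.get 3).get v).getD v 0 = s4.a 3 v := by
    simp [List.getD_eq_getElem?_getD, ← c1, toSt]
  beta_reduce
  rw [this]
  exact hrep v

end Vale.Agent.P305O
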