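import Vale.Agent.P305O.Shell

/-!
# The almost-linear bound with a function that tends to zero
-/

namespace Vale.Agent.P305O

open Vale.Agent.P305 Vale.Agent.P305.MM Vale.Agent.P305E Filter Topology

theorem eps_of_almostLin {T : ℕ → ℕ → ℕ} (h : AlmostLin T) :
    ∃ ε : ℕ → ℝ, Tendsto ε atTop (𝓝 0) ∧
      ∀ n m : ℕ, (T n m : ℝ) ≤ ((n : ℝ) + m + 2) ^ (1 + ε (n + m)) := by
  obtain ⟨S, hS⟩ : ∃ S : ℕ → ℕ, S = fun N => (Finset.range (N + 1)).sup fun n => T n (N - n) :=
    ⟨_, rfl⟩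
  have lg : ∀ N : ℕ, 0 < Real.log ((N : ℝ) + 2) := fun N =>
    Real.log_pos (by have : (0 : ℝ) ≤ N := Nat.cast_nonneg _; linarith)
  refine ⟨fun N => max 0 (Real.log (S N + 1) / Real.log (N + 2) - 1), ?_, fun n m => ?_⟩
  · refine tendsto_order.2 ⟨fun a ha => Eventually.of_forall fun N => lt_max_of_lt_left ha,
      fun a ha => ?_⟩
    obtain ⟨C, hC⟩ := h (a / 2) (by linarith)
    have t : Tendsto (fun N : ℕ => Real.log ((N : ℝ) + 2)) atTop atTop :=
      Real.tendsto_log_atTop.comp (tendsto_atTop_add_const_right _ _ tendsto_natCast_atTop_atTop)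
    filter_upwards [t.eventually_gt_atTop (Real.log (|C| + 1) / (a / 2))] with N hN
    refine max_lt ha ?_
    have N0 : (0 : ℝ) ≤ N := Nat.cast_nonneg _
    have p1 : (1 : ℝ) ≤ ((N : ℝ) + 2) ^ (1 + a / 2) :=
      Real.one_le_rpow (by linarith) (by linarith)
    have b : (S N : ℝ) ≤ |C| * ((N : ℝ) + 2) ^ (1 + a / 2) := by
      obtain ⟨n, hn, e⟩ := Finset.exists_mem_eq_sup (Finset.range (N + 1)) ⟨0, by simp⟩
        fun n => T n (N - n)
      have hn' : n ≤ N := Nat.lt_succ_iff.1 (Finset.mem_range.1 hn)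
      have := hC n (N - n)
      rw [Nat.cast_sub hn', add_sub_cancel] at this
      rw [hS]
      beta_reduce
      rw [e]
      exact this.trans (mul_le_mul (le_abs_self C)
        (Real.rpow_le_rpow (by linarith) (by linarith) (by linarith)) (by positivity)
        (abs_nonneg C))
    have c : Real.log (S N + 1) ≤ Real.log (|C| + 1) + (1 + a / 2) * Real.log (N + 2) := by
      rw [← Real.log_rpow (by linarith), ← Real.log_mul (by positivity) (by positivity)]
      exact Real.log_le_log (by positivity) (by linarith)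
    rw [div_lt_iff₀ (by linarith)] at hN
    rw [sub_lt_iff_lt_add, div_lt_iff₀ (lg N)]
    linarith
  · have a : T n m ≤ S (n + m) := by
      rw [hS]
      exact Finset.le_sup_of_le (f := fun k => T k (n + m - k)) (b := n) (by simp)
        (by simp)
    have a' : (T n m : ℝ) ≤ S (n + m) := by exact_mod_cast a
    have N0 : (0 : ℝ) ≤ ((n + m : ℕ) : ℝ) := Nat.cast_nonneg _
    have l := lg (n + m)
    rw [← Nat.cast_add]
    refine a'.trans (le_trans ?_ (Real.rpow_le_rpow_of_exponent_le (by linarith)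
      (y := Real.log (S (n + m) + 1) / Real.log ((n + m : ℕ) + 2)) ?_))
    · rw [Real.rpow_def_of_pos (by linarith), mul_div_cancel₀ _ l.ne', Real.exp_log (by positivity)]
      linarith
    · have := le_max_right 0 (Real.log (S (n + m) + 1) / Real.log ((n + m : ℕ) + 2) - 1)
      linarith

/-- The final form: one program, time `(n + m + 2) ^ (1 + ε (n + m))` with `ε → 0`. -/
theorem full_eps {ph : ℕ → ℕ → ℕ → Arr (List ℕ) → Arr ℕ → M (Arr ℕ)} {k : ℕ} {g : ℕ → ℕ}
    (hp : PhaseOK ph k g fun b n _ => (n + 1) * g b) :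
    ∃ (P : RProg) (T : ℕ → ℕ → ℕ) (ε : ℕ → ℝ), RandSolves P T ∧ Tendsto ε atTop (𝓝 0) ∧
      ∀ n m : ℕ, (T n m : ℝ) ≤ ((n : ℝ) + m + 2) ^ (1 + ε (n + m)) := by
  obtain ⟨P, T, h1, h2⟩ := full hp
  obtain ⟨ε, h3, h4⟩ := eps_of_almostLin h1
  exact ⟨P, T, ε, h2, h3, h4⟩

end Vale.Agent.P305O
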