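import Vale.Agent.P305.Bdl.B1

/-!
# Reduction to degree three: the gadget graph and its matchings
-/

namespace Vale.Agent.P305O

open Vale.Agent.P305 Finset

/-- Arcs of a graph, sorted by their owner. -/
structure Blk (n : ℕ) (A : ℕ → ℕ → Prop) (off own adj rev : ℕ → ℕ) : Prop where
  gr : Gr n A
  csr : CSR n A off adj
  own_eq : ∀ v < n, ∀ p, off v ≤ p → p < off (v + 1) → own p = v
  arcs : Arcs n A (off n) own adj rev

/-- The copy that precedes the copy of the arc `p` on the path of its owner. -/
def prv (n : ℕ) (off own : ℕ → ℕ) (p : ℕ) : ℕ :=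
  if p = off (own p) then 2 * off n + own p else p - 1

/-- The edges of the gadget graph: `p` is the copy of the arc `p`, `off n + p` its connector,
`2 * off n + v` the additional copy of the vertex `v`. -/
def GR (n : ℕ) (off own rev : ℕ → ℕ) (x y : ℕ) : Prop :=
  ∃ p < off n, (x = p ∧ y = rev p) ∨ (x = off n + p ∧ (y = p ∨ y = prv n off own p))

/-- The gadget graph. -/
def GA3 (n : ℕ) (off own rev : ℕ → ℕ) (x y : ℕ) : Prop :=
  GR n off own rev x y ∨ GR n off own rev y x

variable {n : ℕ} {A : ℕ → ℕ → Prop} {off own adj rev : ℕ → ℕ}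

namespace Blk

theorem blk (h : Blk n A off own adj rev) {p : ℕ} (hp : p < off n) :
    own p < n ∧ off (own p) ≤ p ∧ p < off (own p + 1) := by
  obtain ⟨v, hv, h1, h2⟩ := block_of_lt h.csr.off0 hp
  rw [h.own_eq v hv p h1 h2]
  exact ⟨hv, h1, h2⟩

theorem off_le (h : Blk n A off own adj rev) {v : ℕ} (hv : v < n) : off (v + 1) ≤ off n :=
  h.csr.mono' (by omega) le_rfl

theorem prv_cases (h : Blk n A off own adj rev) {p : ℕ} (hp : p < off n) :
    (p = off (own p) ∧ prv n off own p = 2 * off n + own p) ∨
      (off (own p) < p ∧ prv n off own p + 1 = p ∧ own (prv n off own p) = own p) := by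
  obtain ⟨a, b, c⟩ := h.blk hp
  unfold prv
  split_ifs with e
  · exact Or.inl ⟨e, rfl⟩
  · exact Or.inr ⟨by omega, by omega, h.own_eq _ a _ (by omega) (by omega)⟩

theorem gr3 (h : Blk n A off own adj rev) : Gr (2 * off n + n) (GA3 n off own rev) where
  symm := Or.symm
  irr := by
    have key : ∀ u, ¬ GR n off own rev u u := by
      rintro u ⟨p, hp, ⟨a, b⟩ | ⟨a, b | b⟩⟩
      · exact h.arcs.rev_ne h.gr hp (by omega)
      · omega
      · have := h.blk hp
        rcases h.prv_cases hp with c | c <;> omega
    exact fun u hu => hu.elim (key u) (key u)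
  lt := by
    rintro u v (⟨p, hp, ⟨a, b⟩ | ⟨a, b | b⟩⟩ | ⟨p, hp, ⟨a, b⟩ | ⟨a, b | b⟩⟩)
    all_goals
      have := h.blk hp
      have := h.arcs.rev_lt p hp
      rcases h.prv_cases hp with c | c <;> omega

/-- The neighbours of a copy of an arc. -/
theorem nb_copy (h : Blk n A off own adj rev) {p : ℕ} (hp : p < off n) (y : ℕ) :
    GA3 n off own rev p y ↔
      y = rev p ∨ y = off n + p ∨ (p + 1 < off (own p + 1) ∧ y = off n + p + 1) := by
  obtain ⟨b1, b2, b3⟩ := h.blk hp
  constructor
  · rintro (⟨q, hq, ⟨a, b⟩ | ⟨a, b⟩⟩ | ⟨q, hq, ⟨a, b⟩ | ⟨a, b | b⟩⟩)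
    · exact Or.inl (a ▸ b)
    · omega
    · exact Or.inl (by rw [b, h.arcs.rev_rev hq, a])
    · omega
    · have := h.blk hq
      rcases h.prv_cases hq with c | c
      · omega
      · rw [← b] at c
        rw [c.2.2]
        omega
  · rintro (a | a | ⟨a, b⟩)
    · exact Or.inl ⟨p, hp, Or.inl ⟨rfl, a⟩⟩
    · exact Or.inr ⟨p, hp, Or.inr ⟨a, Or.inl rfl⟩⟩
    · have c := h.off_le b1
      have d := h.own_eq _ b1 (p + 1) (by omega) a
      refine Or.inr ⟨p + 1, by omega, Or.inr ⟨by omega, Or.inr ?_⟩⟩
      rw [prv, d, if_neg (by omega)]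
      rfl

/-- The neighbours of a connector. -/
theorem nb_con (h : Blk n A off own adj rev) {p : ℕ} (hp : p < off n) (y : ℕ) :
    GA3 n off own rev (off n + p) y ↔ y = p ∨ y = prv n off own p := by
  constructor
  · rintro (⟨q, hq, ⟨a, b⟩ | ⟨a, b⟩⟩ | ⟨q, hq, ⟨a, b⟩ | ⟨a, b | b⟩⟩)
    · omega
    · obtain rfl : p = q := by omega
      exact b
    · have := h.arcs.rev_lt q hq
      omega
    · omega
    · rcases h.prv_cases hq with c | c <;> omega
  · exact fun a => Or.inl ⟨p, hp, Or.inr ⟨rfl, a⟩⟩

/-- The neighbours of an additional copy. -/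
theorem nb_ext (h : Blk n A off own adj rev) {v : ℕ} (hv : v < n) (y : ℕ) :
    GA3 n off own rev (2 * off n + v) y ↔ off v < off (v + 1) ∧ y = off n + off v := by
  constructor
  · rintro (⟨q, hq, ⟨a, b⟩ | ⟨a, b⟩⟩ | ⟨q, hq, ⟨a, b⟩ | ⟨a, b | b⟩⟩)
    · omega
    · omega
    · have := h.arcs.rev_lt q hq
      omega
    · omega
    · have := h.blk hq
      rcases h.prv_cases hq with c | c
      · obtain rfl : v = own q := by omega
        omega
      · omega
  · rintro ⟨a, b⟩
    have c := h.off_le hv
    have d := h.own_eq v hv (off v) le_rfl a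
    refine Or.inr ⟨off v, by omega, Or.inr ⟨b, Or.inr ?_⟩⟩
    rw [prv, d, if_pos rfl]

end Blk

/-! ### From the graph to the gadget graph -/

/-- The arc `p` is not to the right of the matched arc of its owner. -/
def Lf (n : ℕ) (off own adj m : ℕ → ℕ) (p : ℕ) : Prop :=
  ∃ q, p ≤ q ∧ q < off n ∧ own q = own p ∧ adj q = m (own p)

open Classical in
/-- The matching of the gadget graph that belongs to `m`. -/
noncomputable def up (n : ℕ) (off own adj rev m : ℕ → ℕ) (x : ℕ) : ℕ :=
  if x < off n then
    if adj x = m (own x) then rev x else if Lf n off own adj m x then off n + x + 1 else off n + x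
  else if x < 2 * off n then
    if Lf n off own adj m (x - off n) then prv n off own (x - off n) else x - off n
  else if x < 2 * off n + n ∧ m (x - 2 * off n) ≠ x - 2 * off n then off n + off (x - 2 * off n)
  else x

section
variable {m : ℕ → ℕ}

open Classical in
theorem up_copy {p : ℕ} (hp : p < off n) : up n off own adj rev m p =
    if adj p = m (own p) then rev p else
      if Lf n off own adj m p then off n + p + 1 else off n + p := by
  rw [up, if_pos hp]

open Classical in
theorem up_con {p : ℕ} (hp : p < off n) : up n off own adj rev m (off n + p) =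
    if Lf n off own adj m p then prv n off own p else p := by
  rw [up, if_neg (by omega), if_pos (by omega), Nat.add_sub_cancel_left]

theorem up_ext {v : ℕ} (hv : v < n) : up n off own adj rev m (2 * off n + v) =
    if m v = v then 2 * off n + v else off n + off v := by
  rw [up, if_neg (by omega), if_neg (by omega), Nat.add_sub_cancel_left]
  by_cases e : m v = v
  · rw [if_pos e, if_neg (fun a => a.2 e)]
  · rw [if_neg e, if_pos ⟨by omega, e⟩]

theorem up_out {x : ℕ} (hx : 2 * off n + n ≤ x) : up n off own adj rev m x = x := by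
  rw [up, if_neg (by omega), if_neg (by omega), if_neg (fun a => by omega)]

theorem three_cases (a n x : ℕ) : x < a ∨ (∃ p < a, x = a + p) ∨ (∃ v < n, x = 2 * a + v) ∨
    2 * a + n ≤ x := by
  by_cases h1 : x < a
  · exact Or.inl h1
  by_cases h2 : x < 2 * a
  · exact Or.inr (Or.inl ⟨x - a, by omega, by omega⟩)
  by_cases h3 : x < 2 * a + n
  · exact Or.inr (Or.inr (Or.inl ⟨x - 2 * a, by omega, by omega⟩))
  · exact Or.inr (Or.inr (Or.inr (by omega)))

theorem Blk.lf_succ (h : Blk n A off own adj rev) {p : ℕ} (hp : p < off n)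
    (e : adj p ≠ m (own p)) (l : Lf n off own adj m p) :
    p + 1 < off (own p + 1) ∧ own (p + 1) = own p ∧ Lf n off own adj m (p + 1) := by
  obtain ⟨q, a, b, c, d⟩ := l
  have hne : q ≠ p := fun x => e (x ▸ d)
  have b1 := h.blk hp
  have b2 := h.blk b
  rw [c] at b2
  have o := h.own_eq _ b1.1 (p + 1) (by omega) (by omega)
  exact ⟨by omega, o, q, by omega, b, by rw [o, c], by rw [o, d]⟩

theorem Blk.lf_off (h : Blk n A off own adj rev) (hm : Mat A m) {v : ℕ} (hv : v < n)
    (e : m v ≠ v) : off v < off (v + 1) ∧ own (off v) = v ∧ Lf n off own adj m (off v) := by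
  obtain ⟨q, a, b, c⟩ := (h.csr.mem v hv _).1 (hm.adj v e)
  have := h.off_le hv
  have o := h.own_eq v hv (off v) le_rfl (by omega)
  exact ⟨by omega, o, q, a, by omega, by rw [o, h.own_eq v hv q a b], by rw [o, c]⟩

theorem up_mat (h : Blk n A off own adj rev) (hm : Mat A m) :
    Mat (GA3 n off own rev) (up n off own adj rev m) := by
  classical
  have key : ∀ x, up n off own adj rev m (up n off own adj rev m x) = x ∧
      (up n off own adj rev m x ≠ x → GA3 n off own rev x (up n off own adj rev m x)) := by
    intro x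
    rcases three_cases (off n) n x with hp | ⟨p, hp, rfl⟩ | ⟨v, hv, rfl⟩ | hx
    · rw [h.nb_copy hp, up_copy hp]
      split_ifs with e l
      · refine ⟨?_, fun _ => Or.inl rfl⟩
        rw [up_copy (h.arcs.rev_lt x hp), if_pos, h.arcs.rev_rev hp]
        rw [h.arcs.adj_rev x hp, h.arcs.own_rev x hp, e, hm.inv]
      · obtain ⟨a, b, c⟩ := h.lf_succ hp e l
        have := h.off_le (h.blk hp).1
        have := (h.blk hp).2.1
        refine ⟨?_, fun _ => Or.inr (Or.inr ⟨a, rfl⟩)⟩
        rw [add_assoc, up_con (by omega), if_pos c, prv, b, if_neg (by omega)]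
        rfl
      · exact ⟨by rw [up_con hp, if_neg l], fun _ => Or.inr (Or.inl rfl)⟩
    · rw [h.nb_con hp, up_con hp]
      split_ifs with l
      · refine ⟨?_, fun _ => Or.inr rfl⟩
        obtain ⟨q, a, b, c, d⟩ := l
        rcases h.prv_cases hp with e | e
        · rw [e.2, up_ext (h.blk hp).1, if_neg, ← e.1]
          rw [← d, ← c]
          exact (h.arcs.ne h.gr b).symm
        · have hq : prv n off own p < off n := by omega
          rw [up_copy hq, if_neg, if_pos ⟨q, by omega, b, by rw [e.2.2, c], by rw [e.2.2, d]⟩]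
          · omega
          · intro e'
            have := h.arcs.inj _ hq _ b (by rw [e.2.2, c]) (by rw [e', e.2.2, d])
            omega
      · refine ⟨?_, fun _ => Or.inl rfl⟩
        rw [up_copy hp, if_neg (fun e => l ⟨p, le_rfl, hp, rfl, e⟩), if_neg l]
    · rw [h.nb_ext hv, up_ext hv]
      split_ifs with e
      · exact ⟨by rw [up_ext hv, if_pos e], fun a => (a rfl).elim⟩
      · obtain ⟨a, b, c⟩ := h.lf_off hm hv e
        have := h.off_le hv
        refine ⟨?_, fun _ => ⟨a, rfl⟩⟩
        rw [up_con (by omega), if_pos c, prv, b, if_pos rfl]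
    · rw [up_out hx]
      exact ⟨up_out hx, fun a => (a rfl).elim⟩
  exact ⟨fun x => (key x).1, fun x => (key x).2⟩

theorem up_exposed (h : Blk n A off own adj rev) (hm : Mat A m) :
    (exposed (2 * off n + n) (up n off own adj rev m)).card ≤ (exposed n m).card := by
  classical
  refine le_trans (card_le_card (t := (exposed n m).image fun v => 2 * off n + v) ?_)
    card_image_le
  intro x hx
  simp only [exposed, mem_filter, mem_range, mem_image] at hx ⊢
  obtain ⟨hx, e⟩ := hx
  rcases three_cases (off n) n x with hp | ⟨p, hp, rfl⟩ | ⟨v, hv, rfl⟩ | hx'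
  · rw [up_copy hp] at e
    have := h.arcs.rev_ne h.gr hp
    split_ifs at e <;> omega
  · rw [up_con hp] at e
    split_ifs at e
    · rcases h.prv_cases hp with c | c <;> omega
    · omega
  · rw [up_ext hv] at e
    have := h.off_le hv
    split_ifs at e with a
    · exact ⟨v, ⟨hv, a⟩, rfl⟩
    · have := (h.lf_off hm hv a).1
      omega
  · omega

end

/-! ### From the gadget graph to the graph -/

/-- `ch` chooses for each vertex an arc that is matched to its reverse, if there is one. -/
structure Ch (n : ℕ) (off own rev m' ch : ℕ → ℕ) : Prop where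
  none : ∀ p < off n, m' p = rev p → ch (own p) ≠ 0
  some : ∀ v < n, ch v ≠ 0 → ch v - 1 < off n ∧ own (ch v - 1) = v ∧ m' (ch v - 1) = rev (ch v - 1)

/-- The matching of the graph that belongs to a choice. -/
def down (n : ℕ) (adj rev ch : ℕ → ℕ) (v : ℕ) : ℕ :=
  if v < n ∧ ch v ≠ 0 ∧ ch (adj (ch v - 1)) = rev (ch v - 1) + 1 then adj (ch v - 1) else v

section
variable {m' ch : ℕ → ℕ}

theorem down_mat (h : Blk n A off own adj rev) (hc : Ch n off own rev m' ch) :
    Mat A (down n adj rev ch) := by
  have key : ∀ v, down n adj rev ch (down n adj rev ch v) = v ∧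
      (down n adj rev ch v ≠ v → A v (down n adj rev ch v)) := by
    intro v
    by_cases e : v < n ∧ ch v ≠ 0 ∧ ch (adj (ch v - 1)) = rev (ch v - 1) + 1
    · obtain ⟨a, b, c⟩ := hc.some v e.1 e.2.1
      have d : down n adj rev ch v = adj (ch v - 1) := if_pos e
      rw [d]
      refine ⟨?_, fun _ => (h.arcs.mem _ _).2 ⟨_, a, b, rfl⟩⟩
      have f : ch (adj (ch v - 1)) - 1 = rev (ch v - 1) := by omega
      rw [down, f, h.arcs.adj_rev _ a, b, h.arcs.rev_rev a,
        if_pos ⟨h.arcs.adj_lt a, by omega, by omega⟩]
    · have d : down n adj rev ch v = v := if_neg e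
      rw [d]
      exact ⟨d, fun a => (a rfl).elim⟩
  exact ⟨fun x => (key x).1, fun x => (key x).2⟩

/-- A vertex without an arc matched to its reverse has an exposed copy. -/
theorem Blk.copy_exposed (h : Blk n A off own adj rev) (hm : Mat (GA3 n off own rev) m') {v : ℕ}
    (hv : v < n) (e : ∀ p, off v ≤ p → p < off (v + 1) → m' p ≠ rev p) :
    m' (2 * off n + v) = 2 * off n + v ∨ ∃ p, off v ≤ p ∧ p < off (v + 1) ∧ m' p = p := by
  by_contra hn
  push Not at hn
  have hle := h.off_le hv
  have key : ∀ i, off v + i < off (v + 1) ∧ ∃ y, y ≠ off v + i ∧ m' y = off n + off v + i := by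
    intro i
    induction i with
    | zero =>
      obtain ⟨a, b⟩ := (h.nb_ext hv _).1 (hm.adj _ hn.1)
      exact ⟨a, _, by omega, b⟩
    | succ i ih =>
      obtain ⟨a, y, b, c⟩ := ih
      have o := h.own_eq v hv (off v + i) (by omega) a
      rcases (h.nb_copy (by omega) _).1 (hm.adj _ (hn.2 (off v + i) (by omega) a)) with d | d | d
      · exact (e _ (by omega) a d).elim
      · have := hm.inv y
        rw [c, add_assoc, ← d, hm.inv] at this
        exact (b this.symm).elim
      · rw [o] at d
        exact ⟨by omega, off v + i, by omega, by omega⟩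
  have := (key (off (v + 1))).1
  omega

theorem down_exposed (h : Blk n A off own adj rev) (hm : Mat (GA3 n off own rev) m')
    (hc : Ch n off own rev m' ch) :
    (exposed n (down n adj rev ch)).card ≤ (exposed (2 * off n + n) m').card := by
  classical
  have inj : Function.Injective m' := fun a b e => by rw [← hm.inv a, e, hm.inv]
  set C : Finset ℕ := range (off n) ∪ Ico (2 * off n) (2 * off n + n) with hC
  set E := (range (off n)).filter fun p => m' p = rev p with hE
  set xC := C.filter fun x => m' x = x with hxC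
  set iC := C.filter fun x => off n ≤ m' x ∧ m' x < 2 * off n with hiC
  set xW := (Ico (off n) (2 * off n)).filter fun x => m' x = x with hxW
  set X0 := (range n).filter fun v => ch v = 0 with hX0
  set N := E.filter fun p => ch (own p) ≠ p + 1 with hN
  have c1 : off n ≤ xW.card + iC.card := by
    have a := card_filter_add_card_filter_not (s := Ico (off n) (2 * off n)) fun x => m' x = x
    have b : ((Ico (off n) (2 * off n)).filter fun x => ¬ m' x = x).card ≤ iC.card := by
      refine card_le_card_of_injOn m' (fun x hx => ?_) inj.injOn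
      simp only [coe_filter, mem_Ico, Set.mem_ofPred_eq] at hx
      obtain ⟨p, rfl⟩ : ∃ p, x = off n + p := ⟨x - off n, by omega⟩
      have hp : p < off n := by omega
      have d := (h.nb_con hp _).1 (hm.adj _ hx.2)
      have := h.blk hp
      simp only [hiC, hC, coe_filter, mem_union, mem_range, mem_Ico, Set.mem_ofPred_eq, hm.inv]
      rcases h.prv_cases hp with c | c <;> omega
    rw [Nat.card_Ico, ← hxW] at a
    omega
  have c2 : xC.card + iC.card + E.card ≤ off n + n := by
    have a : C.card ≤ off n + n := (card_union_le _ _).trans (by simp)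
    refine le_trans ?_ a
    rw [← card_union_of_disjoint, ← card_union_of_disjoint]
    · refine card_le_card (union_subset (union_subset (filter_subset _ _) (filter_subset _ _)) ?_)
      exact (filter_subset _ _).trans subset_union_left
    · rw [disjoint_left]
      intro x a b
      simp only [hxC, hiC, hE, mem_union, mem_filter, mem_range] at a b
      have := h.arcs.rev_lt x b.1
      have := h.arcs.rev_ne h.gr b.1
      omega
    · rw [disjoint_left]
      intro x a b
      simp only [hxC, hiC, hC, mem_union, mem_filter, mem_range, mem_Ico] at a b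
      omega
  have c3 : N.card + n ≤ E.card + X0.card := by
    have a := card_filter_add_card_filter_not (s := range n) fun v => ch v = 0
    have b := card_filter_add_card_filter_not (s := E) fun p => ch (own p) ≠ p + 1
    have c : ((range n).filter fun v => ¬ ch v = 0).card ≤
        (E.filter fun p => ¬ ch (own p) ≠ p + 1).card := by
      refine card_le_card_of_injOn (fun v => ch v - 1) (fun v hv => ?_) fun v hv w hw e => ?_
      · simp only [coe_filter, mem_range, Set.mem_ofPred_eq] at hv
        obtain ⟨x, y, z⟩ := hc.some v hv.1 hv.2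
        simp only [hE, coe_filter, mem_filter, mem_range, Set.mem_ofPred_eq, y]
        exact ⟨⟨x, z⟩, by omega⟩
      · simp only [coe_filter, mem_range, Set.mem_ofPred_eq] at hv hw
        have e' : ch v - 1 = ch w - 1 := e
        rw [← (hc.some v hv.1 hv.2).2.1, e', (hc.some w hw.1 hw.2).2.1]
    rw [card_range, ← hX0] at a
    rw [← hN] at b
    omega
  have c4 : X0.card ≤ xC.card := by
    refine le_trans (card_le_card (t := xC.image fun x => if x < off n then own x else
      x - 2 * off n) fun v hv => ?_) card_image_le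
    simp only [hX0, mem_filter, mem_range] at hv
    have hle := h.off_le hv.1
    simp only [hxC, hC, mem_image, mem_filter, mem_union, mem_range, mem_Ico]
    rcases h.copy_exposed hm hv.1 (fun p a b e => hc.none p (by omega) e
      (by rw [h.own_eq v hv.1 p a b, hv.2])) with a | ⟨p, a, b, c⟩
    · exact ⟨_, ⟨Or.inr (by omega), a⟩, by rw [if_neg (by omega)]; omega⟩
    · exact ⟨p, ⟨Or.inl (by omega), c⟩, by rw [if_pos (by omega), h.own_eq v hv.1 p a b]⟩
  have c5 : (exposed n (down n adj rev ch)).card ≤ X0.card + N.card := by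
    refine le_trans (card_le_card (t := X0 ∪ N.image adj) fun v hv => ?_)
      ((card_union_le _ _).trans (Nat.add_le_add_left card_image_le _))
    simp only [exposed, mem_filter, mem_range] at hv
    simp only [hX0, hN, hE, mem_union, mem_image, mem_filter, mem_range]
    by_cases e : ch v = 0
    · exact Or.inl ⟨hv.1, e⟩
    · obtain ⟨x, y, z⟩ := hc.some v hv.1 e
      refine Or.inr ⟨rev (ch v - 1), ⟨⟨h.arcs.rev_lt _ x, ?_⟩, fun e' => ?_⟩, ?_⟩
      · rw [h.arcs.rev_rev x, ← z, hm.inv]
      · rw [h.arcs.own_rev _ x] at e'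
        have := hv.2
        rw [down, if_pos ⟨hv.1, e, e'⟩] at this
        exact h.arcs.ne h.gr x (by rw [y, this])
      · rw [h.arcs.adj_rev _ x, y]
  have c6 : xC.card + xW.card ≤ (exposed (2 * off n + n) m').card := by
    rw [← card_union_of_disjoint]
    · refine card_le_card fun x hx => ?_
      simp only [hxC, hxW, hC, exposed, mem_union, mem_filter, mem_range, mem_Ico] at hx ⊢
      omega
    · rw [disjoint_left]
      intro x a b
      simp only [hxC, hxW, hC, mem_union, mem_filter, mem_range, mem_Ico] at a b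
      omega
  omega

end

end Vale.Agent.P305O
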