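import Vale.Agent.P305O.Defs
import Vale.Agent.P305O.Gad

/-!
# Reduction to degree three: the programs
-/

namespace Vale.Agent.P305O

open Vale.Agent.P305 Vale.Agent.P305E Vale.Agent.P305F

/-- The offsets in the input array. -/
def aOff (a : Arr ℕ) (v : ℕ) : ℕ := a.get (v + 1)

/-- The heads of the arcs in the input array. -/
def aAdj (a : Arr ℕ) (p : ℕ) : ℕ := a.get (a.get 0 + 2 + p)

@[fun_prop] theorem pure_aOff {α : Type} [Rep α] {f : α → Arr ℕ} {i : α → ℕ} (hf : Pure f)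
    (hi : Grow i) : Pure fun x => aOff (f x) (i x) := by
  unfold aOff
  fun_prop

@[fun_prop] theorem pure_aAdj {α : Type} [Rep α] {f : α → Arr ℕ} {i : α → ℕ} (hf : Pure f)
    (hi : Grow i) : Pure fun x => aAdj (f x) (i x) := by
  unfold aAdj
  fun_prop

@[fun_prop] theorem grow_aOff {α : Type} [Rep α] {f : α → Arr ℕ} {i : α → ℕ} (hf : Pure f)
    (hi : Grow i) : Grow fun x => aOff (f x) (i x) := (pure_aOff hf hi).grow

@[fun_prop] theorem grow_aAdj {α : Type} [Rep α] {f : α → Arr ℕ} {i : α → ℕ} (hf : Pure f)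
    (hi : Grow i) : Grow fun x => aAdj (f x) (i x) := (pure_aAdj hf hi).grow

/-- The owners of the arcs. -/
def ownP (a : Arr ℕ) : M (Arr ℕ) :=
  iterM (fun s v => iterM (fun (s : Arr ℕ) i => pure (s.set (aOff a v + i) v)) s
    (aOff a (v + 1) - aOff a v)) (Arr.const 0) (a.get 0)

/-- The reverses of the arcs. -/
def revA (a own : Arr ℕ) : M (Arr ℕ) :=
  iterM (fun (s : Arr ℕ) p => pure (s.set (own.get p * a.get 0 + aAdj a p) p))
    (Arr.const 0) (aOff a (a.get 0)) >>= fun pos =>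
  tabM (fun p => pure (pos.get (aAdj a p * a.get 0 + own.get p))) 0 (aOff a (a.get 0))

/-- The neighbours of a vertex of the gadget graph. -/
def nbP (a own rev : Arr ℕ) (k x : ℕ) : M (List ℕ) :=
  if x < k then
    num (k + x) >>= fun w => if x + 1 < aOff a (own.get x + 1) then
      num (w + 1) >>= fun w' => pure [rev.get x, w, w'] else pure [rev.get x, w]
  else if x < 2 * k then
    num (if x - k = aOff a (own.get (x - k)) then 2 * k + own.get (x - k) else x - k - 1) >>=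
      fun y => pure [x - k, y]
  else if aOff a (x - 2 * k) < aOff a (x - 2 * k + 1) then
    num (k + aOff a (x - 2 * k)) >>= fun y => pure [y]
  else pure []

/-- Owners, reverses, the number of vertices and the adjacency lists of the gadget graph. -/
def gadP (a : Arr ℕ) : M (Arr ℕ × Arr ℕ × ℕ × Arr (List ℕ)) :=
  ownP a >>= fun own => revA a own >>= fun rev =>
    num (2 * aOff a (a.get 0) + a.get 0) >>= fun n' =>
      tabM (nbP a own rev (aOff a (a.get 0))) [] n' >>= fun adj => pure (own, rev, n', adj)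

/-- The matching of the graph from a matching of the gadget graph. -/
def downP (a own rev mt : Arr ℕ) : M (Arr ℕ) :=
  iterM (fun (s : Arr ℕ) p => if mt.get p = rev.get p then
    num (p + 1) >>= fun y => pure (s.set (own.get p) y) else pure s) (Arr.const 0)
    (aOff a (a.get 0)) >>= fun ch =>
  tabM (fun v => pure (if v < a.get 0 ∧ ch.get v ≠ 0 ∧
    ch.get (aAdj a (ch.get v - 1)) = rev.get (ch.get v - 1) + 1 then
      aAdj a (ch.get v - 1) else v)) 0 (a.get 0)

@[fun_prop] theorem impl_ownP : Impl ownP := by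
  unfold ownP
  fun_prop

@[fun_prop] theorem impl_revA : Impl fun p : Arr ℕ × Arr ℕ => revA p.1 p.2 := by
  unfold revA
  fun_prop

@[fun_prop] theorem impl_nbP : Impl fun p : Arr ℕ × Arr ℕ × Arr ℕ × ℕ × ℕ =>
    nbP p.1 p.2.1 p.2.2.1 p.2.2.2.1 p.2.2.2.2 := by
  unfold nbP
  fun_prop

@[fun_prop] theorem impl_gadP : Impl gadP := by
  unfold gadP
  fun_prop

@[fun_prop] theorem impl_downP : Impl fun p : Arr ℕ × Arr ℕ × Arr ℕ × Arr ℕ =>
    downP p.1 p.2.1 p.2.2.1 p.2.2.2 := by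
  unfold downP
  fun_prop

variable {c : Cx} {n : ℕ} {A : ℕ → ℕ → Prop} {a : Arr ℕ}

theorem ownP_tri (h : CSR n A (aOff a) (aAdj a)) (h0 : a.get 0 = n) :
    Tri c (ownP a) fun own t => (∀ v < n, ∀ p, aOff a v ≤ p → p < aOff a (v + 1) →
      own.get p = v) ∧ t ≤ n + aOff a n := by
  unfold ownP
  rw [h0]
  refine Tri.iterM (fun k (s : Arr ℕ) t => (∀ v < k, ∀ p, aOff a v ≤ p → p < aOff a (v + 1) →
    s.get p = v) ∧ t ≤ k + aOff a k) (by simp) ?_
  rintro k s t hk ⟨h1, h2⟩
  refine (Tri.iterM (fun i (s' : Arr ℕ) t' => t' = i ∧ ∀ p, s'.get p =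
    if aOff a k ≤ p ∧ p < aOff a k + i then k else s.get p) (by simp) ?_).mono ?_
  · rintro i s' _ - ⟨rfl, e⟩
    refine ⟨by omega, fun p => ?_⟩
    rw [Arr.get_set, e]
    split_ifs <;> first | rfl | omega
  · rintro s' _ ⟨rfl, e⟩
    have m := h.mono k hk
    refine ⟨fun v hv p b1 b2 => ?_, by omega⟩
    rw [e]
    by_cases d : v = k
    · subst d
      rw [if_pos ⟨b1, by omega⟩]
    · have := h.mono' (i := v + 1) (j := k) (by omega) (by omega)
      rw [if_neg (by omega)]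
      exact h1 v (by omega) p b1 b2

theorem revA_tri (hG : Gr n A) (h : CSR n A (aOff a) (aAdj a)) (h0 : a.get 0 = n) {own : Arr ℕ}
    (ho : ∀ v < n, ∀ p, aOff a v ≤ p → p < aOff a (v + 1) → own.get p = v) :
    Tri c (revA a own) fun rev t => Blk n A (aOff a) own.get (aAdj a) rev.get ∧
      t ≤ 2 * aOff a n := by
  have hA : ∀ v < n, ∀ p, aOff a v ≤ p → p < aOff a (v + 1) → A v (aAdj a p) :=
    fun v hv p h1 h2 => (h.mem v hv _).2 ⟨p, h1, h2, rfl⟩
  unfold revA
  rw [h0]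
  refine (Tri.iterM (fun k (s : Arr ℕ) t => t ≤ k ∧ ∀ p < k,
    s.get (own.get p * n + aAdj a p) = p) (by simp) ?_).bind ?_
  · rintro k s t hk ⟨ht, e⟩
    refine ⟨by omega, fun p hp => ?_⟩
    rw [Arr.get_set]
    split_ifs with d
    · obtain ⟨v, hv, b1, b2⟩ := block_of_lt h.off0 (show p < aOff a n by omega)
      obtain ⟨w, hw, b3, b4⟩ := block_of_lt h.off0 (show k < aOff a n from hk)
      rw [ho v hv p b1 b2, ho w hw k b3 b4] at d
      obtain ⟨rfl, d'⟩ := index_inj (hG.lt' (hA v hv p b1 b2)) (hG.lt' (hA w hw k b3 b4)) d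
      exact (h.inj v hv p k b1 b2 b3 b4 d').symm
    · exact e p (lt_of_le_of_ne (by omega) fun x => d (by rw [x]))
  · rintro pos t₀ ⟨ht, e⟩
    refine (Tri.tabM (T := 0) (P := fun p x => x = pos.get (aAdj a p * n + own.get p))
      fun _ _ => (Tri_pure _ _).2 ⟨rfl, le_rfl⟩).mono
      fun rev t ⟨b1, _, b2⟩ => ⟨⟨hG, h, ho, arcs_of hG h ho ?_⟩, by omega⟩
    intro v hv p c1 c2
    have d := hA v hv p c1 c2
    have hu := hG.lt' d
    obtain ⟨q, q1, q2, q3⟩ := (h.mem _ hu v).1 (hG.symm d)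
    have l1 := h.mono' (i := v + 1) (j := n) (by omega) le_rfl
    have l2 := h.mono' (i := aAdj a p + 1) (j := n) (by omega) le_rfl
    refine ⟨q, q1, q2, q3, ?_⟩
    have := e q (show q < aOff a n by omega)
    rw [ho _ hu q q1 q2, q3] at this
    rw [b1 p (show p < aOff a n by omega), ho v hv p c1 c2, this]

theorem nbP_tri {own rev : Arr ℕ} (h : Blk n A (aOff a) own.get (aAdj a) rev.get)
    (hB : 2 * aOff a n + n ≤ c.B) {x : ℕ} (hx : x < 2 * aOff a n + n) :
    Tri c (nbP a own rev (aOff a n) x) fun l t =>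
      ((∀ y, y ∈ l ↔ GA3 n (aOff a) own.get rev.get x y) ∧ l.Nodup ∧ l.length ≤ 3) ∧ t ≤ 0 := by
  unfold nbP
  rcases three_cases (aOff a n) n x with hp | ⟨p, hp, rfl⟩ | ⟨v, hv, rfl⟩ | hx'
  · have b := h.blk hp
    have b1 := h.off_le b.1
    have b2 := h.arcs.rev_lt x hp
    simp only [if_pos hp, Tri_bind, Tri_num, Tri_ite, Tri_pure, h.nb_copy hp]
    refine ⟨by omega, fun d => ⟨by omega, ⟨by simp [d], ?_, by simp⟩, le_rfl⟩,
      fun d => ⟨⟨by simp [d], ?_, by simp⟩, le_rfl⟩⟩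
    all_goals
      simp only [List.nodup_cons, List.mem_cons, List.not_mem_nil, List.nodup_nil, or_false,
        not_false_eq_true, and_true]
      omega
  · have b := h.blk hp
    have e : (if p = aOff a (own.get p) then 2 * aOff a n + own.get p else p - 1) =
        prv n (aOff a) own.get p := rfl
    rw [if_neg (by omega), if_pos (by omega), Nat.add_sub_cancel_left, e]
    simp only [Tri_bind, Tri_num, Tri_pure, h.nb_con hp]
    refine ⟨?_, ⟨by simp, ?_, by simp⟩, le_rfl⟩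
    · rcases h.prv_cases hp with d | d <;> omega
    · simp only [List.nodup_cons, List.mem_cons, List.not_mem_nil, List.nodup_nil, or_false,
        not_false_eq_true, and_true]
      rcases h.prv_cases hp with d | d <;> omega
  · have b1 := h.off_le hv
    rw [if_neg (by omega), if_neg (by omega), Nat.add_sub_cancel_left]
    simp only [Tri_bind, Tri_num, Tri_ite, Tri_pure, h.nb_ext hv]
    exact ⟨fun d => ⟨by omega, ⟨by simp [d], by simp, by simp⟩, le_rfl⟩,
      fun d => ⟨⟨by simp [d], by simp, by simp⟩, le_rfl⟩⟩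
  · omega

theorem gadP_tri (hG : Gr n A) (h : CSR n A (aOff a) (aAdj a)) (h0 : a.get 0 = n)
    (hB : 2 * aOff a n + n ≤ c.B) :
    Tri c (gadP a) fun r t => Blk n A (aOff a) r.1.get (aAdj a) r.2.1.get ∧
      r.2.2.1 = 2 * aOff a n + n ∧
      Adj3 (2 * aOff a n + n) (GA3 n (aOff a) r.1.get r.2.1.get) r.2.2.2 ∧
      t ≤ 5 * aOff a n + 2 * n := by
  unfold gadP
  refine (ownP_tri h h0).bind fun own t1 ⟨a1, a2⟩ => ?_
  refine (revA_tri hG h h0 a1).bind fun rev t2 ⟨b1, b2⟩ => ?_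
  simp only [h0, Tri_bind, Tri_num, Tri_pure]
  refine ⟨hB, (Tri.tabM (T := 0) fun x hx => nbP_tri b1 hB hx).mono ?_⟩
  rintro adj t ⟨c1, c2, c3⟩
  refine ⟨b1, trivial, ⟨b1.gr3, fun u v => ?_, fun u => ?_, fun u => ?_⟩, by omega⟩
  all_goals by_cases hu : u < 2 * aOff a n + n
  · exact (c1 u hu).1 v
  · rw [c2 u (by omega)]
    exact ⟨fun x => by simp at x, fun x => (hu (b1.gr3.lt x)).elim⟩
  · exact (c1 u hu).2.1
  · rw [c2 u (by omega)]; simp
  · exact (c1 u hu).2.2
  · rw [c2 u (by omega)]; simp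

theorem downP_tri {own rev mt : Arr ℕ} (h : Blk n A (aOff a) own.get (aAdj a) rev.get)
    (h0 : a.get 0 = n) (hB : aOff a n ≤ c.B) {g : ℕ}
    (hm : Mat (GA3 n (aOff a) own.get rev.get) (pm (2 * aOff a n + n) mt))
    (hg : ¬ Gap (2 * aOff a n + n) (GA3 n (aOff a) own.get rev.get) mt g) :
    Tri c (downP a own rev mt) fun m t => (∀ v, m.get v ≤ n) ∧ (∃ f, Mat A f ∧
      (∀ v < n, m.get v = f v) ∧
        ∀ f', Mat A f' → (exposed n f).card ≤ (exposed n f').card + g) ∧ t ≤ aOff a n + n := by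
  unfold downP
  rw [h0]
  refine (Tri.iterM (fun k (s : Arr ℕ) t => t ≤ k ∧
    (∀ p < k, mt.get p = rev.get p → s.get (own.get p) ≠ 0) ∧ ∀ v, s.get v ≠ 0 →
      s.get v - 1 < k ∧ own.get (s.get v - 1) = v ∧ mt.get (s.get v - 1) = rev.get (s.get v - 1))
    (by simp) ?_).bind ?_
  · rintro k s t hk ⟨ht, b1, b2⟩
    simp only [Tri_ite, Tri_bind, Tri_num, Tri_pure]
    refine ⟨fun d => ⟨by omega, by omega, fun p hp x => ?_, fun v => ?_⟩,
      fun d => ⟨by omega, fun p hp x => ?_, fun v hv => ?_⟩⟩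
    · rw [Arr.get_set]
      split_ifs with y
      · omega
      · exact b1 p (lt_of_le_of_ne (by omega) fun z => y (by rw [z])) x
    · rw [Arr.get_set]
      split_ifs with y
      · exact fun _ => ⟨by omega, y.symm, d⟩
      · exact fun hv => ⟨by have := (b2 v hv).1; omega, (b2 v hv).2⟩
    · exact b1 p (lt_of_le_of_ne (by omega) fun z => d (z ▸ x)) x
    · exact ⟨by have := (b2 v hv).1; omega, (b2 v hv).2⟩
  · rintro ch t₀ ⟨ht, b1, b2⟩
    have hc : Ch n (aOff a) own.get rev.get (pm (2 * aOff a n + n) mt) ch.get :=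
      ⟨fun p hp x => b1 p hp (by rwa [pm_lt _ (by omega)] at x), fun v _ x =>
        ⟨(b2 v x).1, (b2 v x).2.1, by rw [pm_lt _ (by have := (b2 v x).1; omega), (b2 v x).2.2]⟩⟩
    have hM := down_mat h hc
    refine (Tri.tabM (T := 0) (P := fun v x => x = down n (aAdj a) rev.get ch.get v)
      fun v _ => (Tri_pure _ _).2 ⟨rfl, le_rfl⟩).mono ?_
    rintro m t ⟨c1, c2, c3⟩
    refine ⟨fun v => ?_, ⟨_, hM, c1, fun f' hf' => ?_⟩, by omega⟩
    · by_cases hv : v < n
      · rw [c1 v hv]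
        exact (hM.lt h.gr hv).le
      · rw [c2 v (by omega)]
        omega
    · have d1 := down_exposed h hm hc
      have d2 := up_exposed h hf'
      by_contra d3
      exact hg ⟨_, up_mat h hf', by unfold ex; omega⟩

end Vale.Agent.P305O
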