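import Vale.Agent.P305O.Defs

/-!
# The loop over the guesses of the gap
-/

namespace Vale.Agent.P305O

open Vale.Agent.P305 Vale.Agent.P305E Vale.Agent.P305F Vale.Agent.P305C

/-- The number of exposed vertices. -/
def exP (n : ℕ) (a : Arr ℕ) : M ℕ :=
  iterM (fun k v => if a.get v = v then num (k + 1) else pure k) 0 n

/-- The test whether an array is a matching. -/
def okP (n : ℕ) (adj : Arr (List ℕ)) (a : Arr ℕ) : M Bool :=
  iterM (fun b v => anyP (fun u => decide (u = a.get v)) (adj.get v) >>= fun z =>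
    pure (b && decide (a.get v < n ∧ a.get (a.get v) = v ∧ (a.get v = v ∨ z = true)))) true n

/-- The better one of the matching `mt` and the candidate `o`. -/
def better (n : ℕ) (adj : Arr (List ℕ)) (mt o : Arr ℕ) : M (Arr ℕ) :=
  okP n adj o >>= fun z => exP n o >>= fun x => exP n mt >>= fun y =>
    pure (if z = true ∧ x ≤ y then o else mt)

/-- `R` phases with the guess `2 ^ j`. -/
def level (ph : ℕ → ℕ → ℕ → Arr (List ℕ) → Arr ℕ → M (Arr ℕ)) (b R n : ℕ) (adj : Arr (List ℕ))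
    (mt : Arr ℕ) (j : ℕ) : M (Arr ℕ) :=
  pow2 j >>= fun K => iterM (fun mt _ => ph b K n adj mt >>= better n adj mt) mt R

/-- All guesses down to `2 ^ j₀`, starting from the empty matching. -/
def levels (ph : ℕ → ℕ → ℕ → Arr (List ℕ) → Arr ℕ → M (Arr ℕ)) (b R j₀ n : ℕ)
    (adj : Arr (List ℕ)) : M (Arr ℕ) :=
  tabM (fun v => pure v) 0 n >>= fun mt =>
    iterM (fun mt i => level ph b R n adj mt (Nat.size n - 1 - i)) mt (Nat.size n - j₀)

@[fun_prop] theorem impl_exP : Impl fun p : ℕ × Arr ℕ => exP p.1 p.2 := by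
  unfold exP
  fun_prop

@[fun_prop] theorem impl_okP :
    Impl fun p : ℕ × Arr (List ℕ) × Arr ℕ => okP p.1 p.2.1 p.2.2 := by
  unfold okP
  fun_prop

@[fun_prop] theorem impl_better : Impl fun p : ℕ × Arr (List ℕ) × Arr ℕ × Arr ℕ =>
    better p.1 p.2.1 p.2.2.1 p.2.2.2 := by
  unfold better
  fun_prop

theorem impl_levels {ph : ℕ → ℕ → ℕ → Arr (List ℕ) → Arr ℕ → M (Arr ℕ)}
    (h : Impl fun p : ℕ × ℕ × ℕ × Arr (List ℕ) × Arr ℕ =>
      ph p.1 p.2.1 p.2.2.1 p.2.2.2.1 p.2.2.2.2) :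
    Impl fun p : ℕ × ℕ × ℕ × ℕ × Arr (List ℕ) =>
      levels ph p.1 p.2.1 p.2.2.1 p.2.2.2.1 p.2.2.2.2 := by
  unfold levels level
  fun_prop

variable {c : Cx} {n : ℕ} {A : ℕ → ℕ → Prop} {adj : Arr (List ℕ)}

theorem ex_le (n : ℕ) (a : Arr ℕ) : ex n a ≤ n :=
  (Finset.card_filter_le _ _).trans (by simp)

theorem exP_tri (a : Arr ℕ) (hB : n ≤ c.B) : Tri c (exP n a) fun x t => x = ex n a ∧ t ≤ n := by
  refine (Tri.iterM (fun i k t => k = ((Finset.range i).filter fun v => a.get v = v).card ∧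
    t ≤ i) (by simp) ?_).mono ?_
  · rintro i k t hi ⟨rfl, ht⟩
    have := Finset.card_filter_le (Finset.range i) fun v => a.get v = v
    rw [Finset.card_range] at this
    simp only [Tri_ite, Tri_num, Tri_pure, Finset.range_add_one, Finset.filter_insert]
    refine ⟨fun e => ⟨by omega, ?_, by omega⟩, fun e => ⟨by rw [if_neg e], by omega⟩⟩
    rw [if_pos e, Finset.card_insert_of_notMem (by simp)]
  · rintro k t ⟨rfl, ht⟩
    refine ⟨?_, ht⟩
    unfold ex exposed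
    congr 1
    exact Finset.filter_congr fun v hv => by rw [pm_lt _ (Finset.mem_range.1 hv)]

theorem mat_iff (h : Adj3 n A adj) (a : Arr ℕ) : Mat A (pm n a) ↔
    ∀ v < n, a.get v < n ∧ a.get (a.get v) = v ∧ (a.get v = v ∨ A v (a.get v)) := by
  constructor
  · intro m v hv
    have b := m.lt h.gr hv
    have d := m.inv v
    have e := m.adj v
    rw [pm_lt _ hv] at b d e
    rw [pm_lt _ b] at d
    exact ⟨b, d, or_iff_not_imp_left.2 e⟩
  · intro m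
    refine ⟨fun v => ?_, fun v e => ?_⟩ <;> by_cases hv : v < n
    · rw [pm_lt _ hv, pm_lt _ (m v hv).1, (m v hv).2.1]
    · rw [pm_ge _ (not_lt.1 hv), pm_ge _ (not_lt.1 hv)]
    · rw [pm_lt _ hv] at e ⊢
      exact (m v hv).2.2.resolve_left e
    · exact (e (pm_ge _ (not_lt.1 hv))).elim

theorem okP_tri (h : Adj3 n A adj) (a : Arr ℕ) :
    Tri c (okP n adj a) fun z t => (z = true ↔ Mat A (pm n a)) ∧ t ≤ 4 * n := by
  rw [mat_iff h]
  refine Tri.iterM (fun i (z : Bool) t => (z = true ↔ ∀ v < i, a.get v < n ∧ a.get (a.get v) = v ∧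
    (a.get v = v ∨ A v (a.get v))) ∧ t ≤ 4 * i) (by simp) ?_
  rintro i z t hi ⟨hz, ht⟩
  have := h.deg i
  simp only [Tri_bind, Tri_anyP, Tri_pure, Bool.and_eq_true, decide_eq_true_eq, List.any_eq_true,
    exists_eq_right, h.mem, hz, Nat.forall_lt_succ_right]
  exact ⟨trivial, by omega⟩

theorem better_tri (h : Adj3 n A adj) {mt : Arr ℕ} (hm : Mat A (pm n mt)) (o : Arr ℕ)
    (hB : n ≤ c.B) : Tri c (better n adj mt o) fun r t => Mat A (pm n r) ∧ ex n r ≤ ex n mt ∧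
      (Mat A (pm n o) → ex n r ≤ ex n o) ∧ t ≤ 6 * n := by
  refine (okP_tri h o).bind fun z t1 ⟨a1, a2⟩ => (exP_tri o hB).bind ?_
  rintro _ t2 ⟨rfl, b2⟩
  refine (exP_tri mt hB).bind ?_
  rintro _ t3 ⟨rfl, c2⟩
  rw [Tri_pure]
  split_ifs with e
  · exact ⟨a1.1 e.1, e.2, fun _ => le_rfl, by omega⟩
  · exact ⟨hm, le_rfl, fun x => le_of_lt (not_le.1 fun y => e ⟨a1.2 x, y⟩), by omega⟩

theorem Gap.mono {a a' : Arr ℕ} {K K' : ℕ} (h : Gap n A a K) (e : ex n a + K' ≤ ex n a' + K) :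
    Gap n A a' K' := by
  obtain ⟨m, h1, h2⟩ := h
  exact ⟨m, h1, by omega⟩

variable {ph : ℕ → ℕ → ℕ → Arr (List ℕ) → Arr ℕ → M (Arr ℕ)} {k : ℕ} {g : ℕ → ℕ}
  {T : ℕ → ℕ → ℕ → ℕ} {B b R : ℕ}

theorem level_vt (hp : PhaseOK ph k g T) (h : Adj3 n A adj) {mt : Arr ℕ} (hm : Mat A (pm n mt))
    {j : ℕ} (hg : ¬ Gap n A mt (2 ^ (j + 1))) (hn : n ≤ 2 ^ b) (hB : 2 ^ (k * (b + 1)) ≤ B)
    (hnB : n ≤ B) (hR : g b < R) (h1 : g b ≤ 2 ^ j) (h2 : 2 ^ j ≤ n) :
    Vt b B (level ph b R n adj mt j) fun r s => Mat A (pm n r) ∧ ¬ Gap n A r (2 ^ j) ∧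
      s ≤ R * (T b n (2 ^ j) + 6 * n + 1) := by
  refine Vt.tbind' ?_
  simp only [Tri_pow2, Nat.zero_add]
  refine ⟨by omega, (Vt.iterM (fun i r s => Mat A (pm n r) ∧
    (Gap n A r (2 ^ j) → g b * ex n r + i * 2 ^ j ≤ g b * ex n mt) ∧
    s ≤ i * (T b n (2 ^ j) + 6 * n + 1)) (by simpa using hm) ?_).mono ?_⟩
  · rintro i r s - ⟨a1, a2, a3⟩
    refine (hp.spec B b j n A adj r h a1 hn hB h1 h2).bind fun o t ⟨b1, b2⟩ => ?_
    refine Vt.of_tri (cn := true) ((better_tri h a1 o hnB).mono ?_)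
    rintro r' t' ⟨c1, c2, c3, c4⟩
    refine ⟨c1, fun d => ?_, by nlinarith⟩
    have d' : Gap n A r (2 ^ j) := d.mono (by omega)
    have := a2 d'
    have := (b1 d').2
    have := Nat.mul_le_mul_left (g b) (c3 (b1 d').1)
    nlinarith
  · rintro r s ⟨a1, a2, a3⟩
    refine ⟨a1, fun d => hg (d.mono ?_), a3⟩
    have e := a2 d
    have e1 : 0 < 2 ^ j := by positivity
    by_contra e2
    have e3 : ex n mt ≤ ex n r + 2 ^ j := by omega
    have := Nat.mul_le_mul_left (g b) e3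
    nlinarith

theorem levels_vt (hp : PhaseOK ph k g T) (h : Adj3 n A adj) {j₀ X : ℕ} (hn : n ≤ 2 ^ b)
    (hB : 2 ^ (k * (b + 1)) ≤ B) (hnB : n ≤ B) (hR : g b < R) (h1 : g b ≤ 2 ^ j₀)
    (hX : ∀ j, j₀ ≤ j → 2 ^ j ≤ n → T b n (2 ^ j) ≤ X) :
    Vt b B (levels ph b R j₀ n adj) fun r s => Mat A (pm n r) ∧ ¬ Gap n A r (2 ^ j₀) ∧
      s ≤ n + (Nat.size n - j₀) * (R * (X + 6 * n + 1) + 1) := by
  refine Vt.tbind (cn := true) (Tri.tabM (T := 0) (P := fun v x => x = v)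
    fun _ _ => (Tri_pure _ _).2 ⟨rfl, le_rfl⟩) fun mt t ⟨a1, _, a2⟩ => ?_
  refine (Vt.iterM (fun i r s => Mat A (pm n r) ∧ ¬ Gap n A r (2 ^ (Nat.size n - i)) ∧
    s ≤ i * (R * (X + 6 * n + 1) + 1)) ⟨(mat_iff h mt).2 fun v hv => ?_, ?_, by simp⟩ ?_).mono ?_
  · rw [a1 v hv, a1 v hv]
    exact ⟨hv, rfl, Or.inl rfl⟩
  · rintro ⟨m, -, e⟩
    have := ex_le n mt
    have := Nat.lt_size_self n
    rw [Nat.sub_zero] at e
    omega
  · rintro i r s hi ⟨b1, b2, b3⟩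
    have e : 2 ^ (Nat.size n - 1 - i) ≤ n := Nat.lt_size.1 (by omega)
    refine (level_vt hp h b1 (by rwa [show Nat.size n - 1 - i + 1 = Nat.size n - i by omega]) hn hB
      hnB hR (h1.trans (Nat.pow_le_pow_right (by omega) (by omega))) e).mono ?_
    rintro r' s' ⟨c1, c2, c3⟩
    refine ⟨c1, by rwa [show Nat.size n - (i + 1) = Nat.size n - 1 - i by omega], ?_⟩
    have := Nat.mul_le_mul_left R (show T b n (2 ^ (Nat.size n - 1 - i)) + 6 * n + 1 ≤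
      X + 6 * n + 1 by have := hX _ (by omega) e; omega)
    nlinarith
  · rintro r s ⟨b1, b2, b3⟩
    refine ⟨b1, fun d => b2 (d.mono ?_), by omega⟩
    exact Nat.add_le_add_left (Nat.pow_le_pow_right (by omega) (by omega)) _

end Vale.Agent.P305O
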