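import Vale.Agent.P305O.Defs

/-!
# From computations to programs of the word RAM, with a polynomial factor in the time
-/

namespace Vale.Agent.P305O

open Vale.Agent.P305 Vale.Agent.P305.MM Vale.Agent.P305E

theorem top_fuel (main : List ℕ → M (List ℕ)) (hI : Impl main) (a : ℕ) (F : ℕ → ℕ) (hF : Grow F)
    (hF1 : ∀ N, 2 ≤ N → 1 ≤ F N ∧ F N ≤ N ^ 2) (g : ℕ → ℕ) (hg : Sub g)
    (h : ∀ (n : ℕ) (G : SimpleGraph (Fin n)) (L : AdjLists G),
      pr ((n + G.edgeSet.ncard + 2) ^ a) (main L.encode) (fun out t =>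
        ¬ ((∃ M : G.Subgraph, IsMaximumMatching G M ∧ Represents (fun i => out.getD i 0) M) ∧
          t ≤ (n + G.edgeSet.ncard + 2) * F (n + G.edgeSet.ncard + 2) *
            g (n + G.edgeSet.ncard + 2))) ≤ 1 / 3) :
    ∃ (P : RProg) (T : ℕ → ℕ → ℕ) (g' : ℕ → ℕ), Sub g' ∧
      (∀ n m, T n m ≤ (n + m + 2) * F (n + m + 2) * g' (n + m + 2)) ∧ RandSolves P T := by
  obtain ⟨e, j, he⟩ := hI
  obtain ⟨c, hc⟩ := (((Sub.const 3).mul ((Sub.lg_pow (a + j + 2)).pow j)).mul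
    (hg.add (Sub.const 1))).exists_lin
  obtain ⟨fu, hfu'⟩ : ∃ fu : ℕ → ℕ, fu = fun N => F N * fuelF c N := ⟨_, rfl⟩
  obtain ⟨kf, ef, jf, hf⟩ : Grow fu := hfu' ▸ hF.mul (grow_fuelF c)
  have hsub : Sub fun N => 2 ^ (c * sb N) := Sub.two_pow (Lin.sb.const_mul c)
  obtain ⟨jw, hjw⟩ : ∃ jw, jw = (a + j + 2) * j + (jf + 1) * jf + (c + 3) := ⟨_, rfl⟩
  obtain ⟨cC, k1, K, hC⟩ := ram_of_Ex ef e jw (3 * (8 * ((jf + 1) * jf) ^ ((jf + 1) * jf)))
    fu fun N hN => by
      refine ⟨?_, fun ω => ?_⟩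
      · calc fu N = F N * (N * (2 ^ sb N) ^ c) := by
              rw [hfu']; beta_reduce; rw [fuelF, ← pow_mul, mul_comm c]
          _ ≤ N ^ 2 * (N * N ^ c) := Nat.mul_le_mul (hF1 N hN).2
              (Nat.mul_le_mul_left _ (Nat.pow_le_pow_left (two_pow_sb_le hN) _))
          _ = N ^ (c + 3) := by ring
          _ ≤ N ^ jw := Nat.pow_le_pow_right (by omega) (by omega)
      · have h1 : N ≤ N ^ (jf + 1) := Nat.le_self_pow (by omega) _
        have h2 : jf + 1 < N ^ (jf + 1) := Nat.lt_pow_self (by omega)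
        obtain ⟨v', t, g1, g2, g3⟩ := hf (N ^ (jf + 1)) (N ^ jw)
          ⟨by omega, by omega, by rw [← pow_mul]; exact Nat.pow_le_pow_right (by omega) (by omega)⟩
          (.nat N) N ⟨rfl, h1⟩ ω 0
        refine ⟨t, g2.1 ▸ g1, ?_⟩
        have h3 : t ≤ lg N ^ ((jf + 1) * jf) := by
          rw [pow_mul]
          exact g3.trans (Nat.pow_le_pow_left (lg_pow_le N jf) _)
        have h4 := lg_pow_le_lin ((jf + 1) * jf) (x := N) (by omega)
        rw [mul_assoc]
        omega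
  obtain ⟨P, C0, k, hP⟩ := ram_of_C cC k1 (fun n m => K * (fu (n + m + 2) + (n + m + 2)))
    fun n G L ω => ⟨(hC n G L ω).1, (hC n G L ω).2.1⟩
  refine ⟨P, fun n m => (C0 + 1) * (K + 1) * (fu (n + m + 2) + (n + m + 2)) + 5 * n + 13, _,
    ((Sub.const ((C0 + 1) * (K + 1))).mul (hsub.add (Sub.const 1))).add (Sub.const 12),
      fun n m => ?_, k, fun n G L => ⟨fun ω => ?_, fun B hB => ?_⟩⟩
  · have h1 := (hF1 (n + m + 2) (by omega)).1
    have h2 : n + m + 2 ≤ (n + m + 2) * F (n + m + 2) := Nat.le_mul_of_pos_right _ h1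
    have h3 : fu (n + m + 2) = (n + m + 2) * F (n + m + 2) * 2 ^ (c * sb (n + m + 2)) := by
      rw [hfu']; beta_reduce; rw [fuelF]; ring
    beta_reduce
    rw [h3]
    generalize (n + m + 2) * F (n + m + 2) = Y at *
    have := Nat.mul_le_mul_left ((C0 + 1) * (K + 1)) h2
    nlinarith [Nat.zero_le m]
  · obtain ⟨t, s, i, h1, h2, -⟩ := hP n G L ω
    refine ⟨t, s, i, h1, h2.trans ?_⟩
    beta_reduce
    generalize fu (n + G.edgeSet.ncard + 2) + (n + G.edgeSet.ncard + 2) = X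
    nlinarith [Nat.zero_le (C0 * X), Nat.zero_le (K * X)]
  · obtain ⟨N, hN⟩ : ∃ N, N = n + G.edgeSet.ncard + 2 := ⟨_, rfl⟩
    have hN2 : 2 ≤ N := by omega
    have hcN := hc N hN2
    have hlg := one_le_lg_pow (N ^ (a + j + 2)) j
    have hfu : 3 * (lg (N ^ (a + j + 2)) ^ j * (N * F N * g N + 1)) ≤ fu N := by
      have h0 : 1 ≤ N * F N := Nat.mul_pos (by omega) (hF1 N hN2).1
      have : N * F N * g N + 1 ≤ N * F N * (g N + 1) := by nlinarith
      calc _ ≤ 3 * (lg (N ^ (a + j + 2)) ^ j * (N * F N * (g N + 1))) :=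
            Nat.mul_le_mul_left _ (Nat.mul_le_mul_left _ this)
        _ = N * F N * (3 * lg (N ^ (a + j + 2)) ^ j * (g N + 1)) := by ring
        _ ≤ N * F N * 2 ^ (c * sb N) := Nat.mul_le_mul_left _ hcN
        _ = _ := by rw [hfu']; beta_reduce; rw [fuelF]; ring
    have hTB : N * F N * g N ≤ B := by
      beta_reduce at hB
      rw [← hN] at hB
      have h1 : N * F N * g N + 1 ≤ lg (N ^ (a + j + 2)) ^ j * (N * F N * g N + 1) :=
        Nat.le_mul_of_pos_left _ hlg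
      have h2 : fu N + N ≤ (C0 + 1) * (K + 1) * (fu N + N) :=
        Nat.le_mul_of_pos_left _ (by positivity)
      omega
    have h23 := two_thirds (B := N ^ a) (main L.encode) (fun out _ => ∃ M : G.Subgraph,
      IsMaximumMatching G M ∧ Represents (fun i => out.getD i 0) M) hTB
      (by rw [hN]; exact h n G L)
    refine h23.trans (Nat.mul_le_mul_left _ (Nat.card_le_card_of_injective
      (Subtype.map id fun ω hω => ?_) (Subtype.map_injective _ Function.injective_id)))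
    obtain ⟨out, i, t, hr, ⟨M, hM, hrep⟩, ht⟩ := hω
    obtain ⟨t', s, i', h1, -, h3⟩ := hP n G L (extend ω)
    refine ⟨t', s, i', M, h1, hM, fun v => ?_⟩
    have hB2 : N ^ 2 ≤ N ^ (a + j + 2) := Nat.pow_le_pow_right (by omega) (by omega)
    have hsq : 2 * N ≤ N ^ 2 := by rw [pow_two]; exact Nat.mul_le_mul_right _ hN2
    have hj : a + j + 2 < N ^ (a + j + 2) := Nat.lt_pow_self (by omega)
    obtain ⟨v', steps, g1, g2, g3⟩ := he (N ^ (a + j + 2)) (N ^ jw)
      ⟨by omega, by omega, by rw [← pow_mul]; exact Nat.pow_le_pow_right (by omega) (by omega)⟩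
      (V.ofList L.encode) L.encode (R_ofList fun x hx => by
        obtain ⟨y, hy, rfl⟩ := List.getElem_of_mem hx
        have := IO.encode_le L y
        rw [List.getD_eq_getElem _ _ hy] at this
        omega) (extend ω) 0 out i t
      ((main L.encode).run_mono (Nat.pow_le_pow_right (by omega) (by omega)) hr)
    rw [eq_ofList_of_R g2] at g1
    have h4 := (hC n G L (extend ω)).2.2 steps out i (hN ▸ g1) (by
      rw [← hN]
      refine le_trans (Nat.mul_le_mul_left _ (g3.trans (Nat.mul_le_mul_left _ ?_))) hfu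
      omega) v v.2
    rw [h3 v v.2, h4]
    exact hrep v

/-- The exponent of the polynomial factor. -/
def ee (p q N : ℕ) : ℕ := p * Nat.size N / (p + q)

theorem ee_le (p q N : ℕ) : ee p q N ≤ Nat.size N :=
  Nat.div_le_of_le_mul (Nat.mul_le_mul_right _ (by omega))

theorem pure_ee (p q : ℕ) : Pure (ee p q) :=
  (show Pure fun N : ℕ => min (Nat.size N) (p * Nat.size N / (p + q)) by fun_prop).of_eq
    fun N => min_eq_right (ee_le p q N)

theorem grow_ee (p q : ℕ) : Grow fun N => 2 ^ ee p q N := by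
  have h0 := pure_ee p q
  have h : Impl fun N : ℕ => pow2 (ee p q N - 1) := by fun_prop
  have h1 : Pure fun N : ℕ => 2 ^ (ee p q N - 1) := by
    refine Pure.of_impl h 0 fun B N hB _ ⟨v, hv⟩ => ?_
    simp only [Tri_pow2, pow_zero, zero_add, le_refl, and_true]
    have a := ee_le p q N
    rcases Nat.eq_zero_or_pos (ee p q N) with e | e
    · rw [e]; omega
    · exact (Nat.lt_size.1 (by omega)).trans hv.2
  have h2 := h0.grow
  have h3 := h1.grow
  refine (show Grow fun N : ℕ => if ee p q N = 0 then 1 else 2 * 2 ^ (ee p q N - 1) from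
    Grow.ite (by fun_prop) (by fun_prop) (Grow.mul (by fun_prop) h3)).of_eq fun N => ?_
  split_ifs with e
  · rw [e]; rfl
  · rw [← pow_succ']; congr 1; omega

theorem ee_pow {p q N : ℕ} (h : 2 ≤ N) : 1 ≤ 2 ^ ee p q N ∧ 2 ^ ee p q N ≤ N ^ 2 := by
  refine ⟨Nat.one_le_two_pow, (Nat.pow_le_pow_right (by omega) (ee_le p q N)).trans ?_⟩
  have := two_pow_size_le (by omega : 1 ≤ N)
  nlinarith

theorem powTime_of {p q : ℕ} (hq : 0 < q) {T : ℕ → ℕ → ℕ} {g : ℕ → ℕ} (hg : Sub g)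
    (h : ∀ n m, T n m ≤ (n + m + 2) * 2 ^ ee p q (n + m + 2) * g (n + m + 2)) :
    PowTime (1 + p / (p + q)) T := by
  intro ε hε
  obtain ⟨C, hC0, hC⟩ := hg.le_rpow hε
  obtain ⟨x, hx⟩ : ∃ x : ℝ, x = p / (p + q) := ⟨_, rfl⟩
  have hpq : (0 : ℝ) < p + q := by positivity
  have x0 : 0 ≤ x := by rw [hx]; positivity
  rw [← hx]
  refine ⟨2 ^ x * C * 2 ^ (1 + x + ε), fun n m => ?_⟩
  obtain ⟨N, hN⟩ : ∃ N, N = n + m + 2 := ⟨_, rfl⟩
  have h1 : (T n m : ℝ) ≤ N * 2 ^ ee p q N * g N := by rw [hN]; exact_mod_cast h n m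
  have h2 := hC N (by omega)
  have h3 : (0 : ℝ) < N := by exact_mod_cast (by omega : 0 < N)
  have h4 : (N : ℝ) ≤ 2 * ((n : ℝ) + m + 1) := by
    have : (0 : ℝ) ≤ n := Nat.cast_nonneg _
    have : (0 : ℝ) ≤ m := Nat.cast_nonneg _
    rw [hN]
    push_cast
    linarith
  have h5 : (2 : ℝ) ^ ee p q N ≤ 2 ^ x * (N : ℝ) ^ x := by
    have a : ((ee p q N : ℕ) : ℝ) ≤ (Nat.size N : ℝ) * x := by
      refine Nat.cast_div_le.trans (le_of_eq ?_)
      rw [hx]
      push_cast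
      ring
    calc (2 : ℝ) ^ ee p q N = (2 : ℝ) ^ ((ee p q N : ℕ) : ℝ) := (Real.rpow_natCast _ _).symm
      _ ≤ (2 : ℝ) ^ ((Nat.size N : ℝ) * x) := Real.rpow_le_rpow_of_exponent_le (by norm_num) a
      _ = ((2 : ℝ) ^ Nat.size N) ^ x := by rw [Real.rpow_mul (by norm_num), Real.rpow_natCast]
      _ ≤ (2 * N : ℝ) ^ x := by
          refine Real.rpow_le_rpow (by positivity) ?_ x0
          exact_mod_cast two_pow_size_le (by omega : 1 ≤ N)
      _ = _ := Real.mul_rpow (by norm_num) (by positivity)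
  calc (T n m : ℝ) ≤ N * (2 ^ x * (N : ℝ) ^ x) * (C * (N : ℝ) ^ ε) :=
        h1.trans (mul_le_mul (mul_le_mul_of_nonneg_left h5 h3.le) h2 (by positivity)
          (by positivity))
    _ = 2 ^ x * C * (N : ℝ) ^ (1 + x + ε) := by
        rw [Real.rpow_add h3, Real.rpow_add h3, Real.rpow_one]; ring
    _ ≤ 2 ^ x * C * (2 * ((n : ℝ) + m + 1)) ^ (1 + x + ε) :=
        mul_le_mul_of_nonneg_left (Real.rpow_le_rpow h3.le h4 (by linarith)) (by positivity)
    _ = _ := by rw [Real.mul_rpow (by norm_num) (by positivity)]; ring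

end Vale.Agent.P305O
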