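import Vale.Agent.P305O.Aug
import Vale.Agent.P305O.GadP
import Vale.Agent.P305O.Loop
import Vale.Agent.P305O.Top

/-!
# The outer shell: from phases to maximum matchings
-/

namespace Vale.Agent.P305O

open Vale.Agent.P305 Vale.Agent.P305.MM Vale.Agent.P305E Vale.Agent.P305F Vale.Agent.P305C

/-- The whole program. -/
def shell (ph : ℕ → ℕ → ℕ → Arr (List ℕ) → Arr ℕ → M (Arr ℕ)) (kb cR p q : ℕ) (inp : List ℕ) :
    M (List ℕ) :=
  ofListP 0 inp >>= fun a => num (a.get 0 + aOff a (a.get 0) / 2 + 2) >>= fun N =>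
    num (kb * Nat.size N + kb) >>= fun b => num (cR * sb N) >>= fun j₁ => pow2 j₁ >>= fun R =>
    num (j₁ + ee p q N) >>= fun j₀ => gadP a >>= fun r =>
    levels ph b R j₀ r.2.2.1 r.2.2.2 >>= fun mt => downP a r.1 r.2.1 mt >>= fun m => finish a m

theorem impl_shell {ph : ℕ → ℕ → ℕ → Arr (List ℕ) → Arr ℕ → M (Arr ℕ)}
    (h : Impl fun p : ℕ × ℕ × ℕ × Arr (List ℕ) × Arr ℕ =>
      ph p.1 p.2.1 p.2.2.1 p.2.2.2.1 p.2.2.2.2) (kb cR p q : ℕ) : Impl (shell ph kb cR p q) := by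
  have h1 := impl_levels h
  have h2 := (pure_ee p q).grow
  have h3 : Grow sb := by unfold sb; fun_prop
  unfold shell
  fun_prop

theorem pr_of_vt {β : Type} {d B : ℕ} {m : M β} {G : β → Prop} {Y Z : ℕ}
    (h : Vt d B m fun b s => G b ∧ s ≤ Y ∧ s ≤ Z) (hZ : 10 * Z ≤ 2 ^ d) (hY : 0 < Y) :
    pr B m (fun b t => ¬ (G b ∧ t ≤ 10 * Y)) ≤ 1 / 3 := by
  classical
  have h1 := (h.mono (Q' := fun b s => G b ∧ s ≤ min Y Z) fun b s a => ⟨a.1, le_min a.2.1 a.2.2⟩).lv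
  have y0 : (0 : ℝ) < Y := by exact_mod_cast hY
  have a1 : ((min Y Z : ℕ) : ℝ) ≤ Y := by exact_mod_cast min_le_left _ _
  have a2 : ((min Y Z : ℕ) : ℝ) ≤ Z := by exact_mod_cast min_le_right _ _
  have a3 : (10 : ℝ) * Z ≤ 2 ^ d := by exact_mod_cast hZ
  refine (h1 _ 0 (1 / (10 * Y)) (by positivity) le_rfl (fun _ _ => by split_ifs <;> norm_num)
    fun b t hb => ?_).trans ?_
  · by_cases e : t ≤ 10 * Y
    · rw [if_neg (not_not.2 ⟨hb, e⟩)]
      positivity
    · rw [if_pos fun x => e x.2]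
      have : 10 * Y < t := not_le.1 e
      have : (10 : ℝ) * Y ≤ t := by exact_mod_cast this.le
      rw [zero_add, one_div, inv_mul_eq_div, le_div_iff₀ (by positivity)]
      linarith
  · have b1 : 1 / (10 * (Y : ℝ)) * (min Y Z : ℕ) ≤ 1 / 10 := by
      rw [one_div, inv_mul_eq_div, div_le_iff₀ (by positivity)]
      linarith
    have b2 : ((min Y Z : ℕ) : ℝ) / 2 ^ d ≤ 1 / 10 := by
      rw [div_le_iff₀ (by positivity)]
      linarith
    linarith

theorem two_pow_b {N kb : ℕ} (h2 : 2 ≤ N) :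
    2 ^ (kb * Nat.size N + kb + 1) ≤ N ^ (3 * kb + 1) ∧
      2 ^ kb * N ^ kb ≤ 2 ^ (kb * Nat.size N + kb) := by
  constructor
  · calc 2 ^ (kb * Nat.size N + kb + 1) = (2 ^ Nat.size N * 2) ^ kb * 2 := by
          rw [← pow_succ 2 (Nat.size N), ← pow_mul]; ring
      _ ≤ (N ^ 3) ^ kb * N := Nat.mul_le_mul (Nat.pow_le_pow_left (by
          have := two_pow_size_le (by omega : 1 ≤ N)
          nlinarith [Nat.mul_le_mul h2 h2]) _) h2
      _ = _ := by rw [← pow_mul, pow_succ]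
  · rw [pow_add, mul_comm kb, pow_mul, mul_comm]
    exact Nat.mul_le_mul_right _ (Nat.pow_le_pow_left (Nat.lt_size_self N).le _)

theorem cost_pow {p q N n j : ℕ} (hq : 0 < q) (hn : n + 1 ≤ 4 * N) (hj : ee p q N ≤ j) :
    (n + 1) ^ p ≤ (2 ^ j) ^ p * (2 ^ ee p q N * 2 ^ (3 * p + 1)) ^ q := by
  have a : n + 1 ≤ 2 ^ (Nat.size N + 2) := by
    have := Nat.lt_size_self N
    rw [pow_add]
    omega
  refine (Nat.pow_le_pow_left a p).trans ?_
  rw [← pow_add, ← pow_mul, ← pow_mul, ← pow_mul, ← pow_add]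
  refine Nat.pow_le_pow_right (by omega) ?_
  have b : p * Nat.size N < (p + q) * (ee p q N + 1) := Nat.lt_mul_div_succ _ (by omega)
  have c := Nat.mul_le_mul_right p hj
  have d : 3 * p ≤ 3 * p * q := Nat.le_mul_of_pos_right _ hq
  nlinarith

/-- The two bounds for the time. -/
theorem time_le {N n R E c l i x u y : ℕ} (h2 : 2 ≤ N) (hn : n + 1 ≤ 4 * N) (hR : 1 ≤ R)
    (hE : 1 ≤ E) (hE' : E ≤ 2 * N) (hc : 1 ≤ c) (hl : 1 ≤ l) (hi : i ≤ l) (hi' : i ≤ 4 * N)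
    (hR' : i ≠ 0 → R ≤ 4 * N) (hx : x ≤ R) (hu : u ≤ R * E) (hu' : u ≤ N) (hy : y ≤ l)
    (hy' : y ≤ N) :
    20 * N + i * (R * ((n + 1) * x * (E * c) + 6 * n + 1) + 1) + (u + 1) * (400 * (y * (2 * N))) ≤
        N * E * (2000 * c * l * R ^ 2) ∧
      20 * N + i * (R * ((n + 1) * x * (E * c) + 6 * n + 1) + 1) +
        (u + 1) * (400 * (y * (2 * N))) ≤ 5000 * c * N ^ 5 := by
  have a0 : 1 ≤ R * (E * c) := Nat.mul_pos hR (Nat.mul_pos hE hc)
  have a1 : (n + 1) * x * (E * c) ≤ 4 * (N * (R * (E * c))) :=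
    (Nat.mul_le_mul_right _ (Nat.mul_le_mul hn hx)).trans (le_of_eq (by ring))
  have a2 : N ≤ N * (R * (E * c)) := Nat.le_mul_of_pos_right _ a0
  have a3 : R * ((n + 1) * x * (E * c) + 6 * n + 1) + 1 ≤ 29 * (R * (N * (R * (E * c)))) := by
    have := Nat.mul_le_mul_left R
      (show (n + 1) * x * (E * c) + 6 * n + 1 ≤ 28 * (N * (R * (E * c))) by omega)
    have : N * (R * (E * c)) ≤ R * (N * (R * (E * c))) := Nat.le_mul_of_pos_left _ hR
    nlinarith
  constructor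
  · obtain ⟨Y, hY⟩ : ∃ Y, Y = l * (R * (N * (R * (E * c)))) := ⟨_, rfl⟩
    have b1 := (Nat.mul_le_mul hi a3).trans (le_of_eq (show _ = 29 * Y by rw [hY]; ring))
    have b2 : N ≤ Y := a2.trans ((Nat.le_mul_of_pos_left _ hR).trans
      (hY ▸ Nat.le_mul_of_pos_left _ hl))
    have b3 : (u + 1) * (400 * (y * (2 * N))) ≤ 1600 * (l * (N * (R * E))) := by
      have : 1 ≤ R * E := Nat.mul_pos hR hE
      calc _ ≤ (2 * (R * E)) * (400 * (l * (2 * N))) :=
            Nat.mul_le_mul (by omega) (Nat.mul_le_mul_left _ (Nat.mul_le_mul_right _ hy))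
        _ = _ := by ring
    have b4 : l * (N * (R * E)) ≤ Y := by
      calc _ ≤ l * (N * (R * E)) * (R * c) := Nat.le_mul_of_pos_right _ (Nat.mul_pos hR hc)
        _ = Y := by rw [hY]; ring
    calc _ ≤ 2000 * Y := by omega
      _ = _ := by rw [hY]; ring
  · have b0 : N ^ 3 ≤ c * N ^ 5 :=
      (Nat.pow_le_pow_right (by omega) (by omega)).trans (Nat.le_mul_of_pos_left _ hc)
    have b1 : N ≤ N ^ 3 := Nat.le_self_pow (by omega) _
    have b2 : 4 * N ^ 3 ≤ N ^ 5 := by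
      calc 4 * N ^ 3 ≤ N * N * N ^ 3 := Nat.mul_le_mul_right _ (Nat.mul_le_mul h2 h2)
        _ = _ := by ring
    have b2' : N ^ 5 ≤ c * N ^ 5 := Nat.le_mul_of_pos_left _ hc
    have b3 : (u + 1) * (400 * (y * (2 * N))) ≤ 1600 * N ^ 3 := by
      calc _ ≤ (2 * N) * (400 * (N * (2 * N))) :=
            Nat.mul_le_mul (by omega) (Nat.mul_le_mul_left _ (Nat.mul_le_mul_right _ hy'))
        _ = _ := by ring
    have b4 : i * (R * ((n + 1) * x * (E * c) + 6 * n + 1) + 1) ≤ 3712 * (c * N ^ 5) := by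
      rcases Nat.eq_zero_or_pos i with e | e
      · simp [e]
      · have d := hR' (by omega)
        calc _ ≤ 4 * N * (29 * (4 * N * (N * (4 * N * (2 * N * c))))) :=
              Nat.mul_le_mul hi' (a3.trans (by gcongr))
          _ = _ := by ring
    rw [mul_assoc 5000]
    omega

theorem shell_vt {ph : ℕ → ℕ → ℕ → Arr (List ℕ) → Arr ℕ → M (Arr ℕ)} {k : ℕ} {g : ℕ → ℕ}
    {T : ℕ → ℕ → ℕ → ℕ} (hp : PhaseOK ph k g T) {p q : ℕ} (hq : 0 < q) (hT : PowCost g p q T)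
    {kb cR n N B : ℕ} {G : SimpleGraph (Fin n)} (L : AdjLists G)
    (hN : N = n + G.edgeSet.ncard + 2) (hkb : 2 ≤ kb)
    (hR : g (kb * Nat.size N + kb) < 2 ^ (cR * sb N))
    (h1 : 2 ^ (k * (kb * Nat.size N + kb + 1)) ≤ B) (h2 : 2 ^ (kb * Nat.size N + kb) ≤ B)
    (h3 : 2 ^ (cR * sb N) * N ≤ B) (h4 : 4000 * N ^ 3 ≤ B) :
    Vt (kb * Nat.size N + kb) B (shell ph kb cR p q L.encode) fun out s =>
      (∃ M : G.Subgraph, IsMaximumMatching G M ∧ Represents (fun i => out.getD i 0) M) ∧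
      s ≤ N * 2 ^ ee p q N * (2000 * 2 ^ (3 * p + 1) * lg N * (2 ^ (cR * sb N)) ^ 2) ∧
      s ≤ 5000 * 2 ^ (3 * p + 1) * N ^ 5 := by
  obtain ⟨a, ha⟩ : ∃ a : Arr ℕ, a = ⟨fun i => L.encode.getD i 0⟩ := ⟨_, rfl⟩
  have ha' : ∀ i, a.get i = L.encode.getD i 0 := fun i => by rw [ha]
  have a0 : a.get 0 = n := by rw [ha', L.encode_zero]
  have a1 : aOff a n = 2 * G.edgeSet.ncard := by
    rw [aOff, ha', L.encode_off le_rfl, L.upTo_length]
  have hl : L.encode.length = n + 2 + 2 * G.edgeSet.ncard := by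
    rw [L.encode_length, L.upTo_length]
  have hC : CSR n (natAdj G) (aOff a) (aAdj a) :=
    csr_of_encode L (fun i _ => ha' _) fun p _ => by rw [aAdj, a0, ha']
  have hN2 : 2 ≤ N := by omega
  have n3 : N ≤ N ^ 3 := Nat.le_self_pow (by omega) _
  obtain ⟨b, hb⟩ : ∃ b, b = kb * Nat.size N + kb := ⟨_, rfl⟩
  obtain ⟨j, hj⟩ : ∃ j, j = cR * sb N := ⟨_, rfl⟩
  have b1 : 4 * N ≤ 2 ^ b := by
    refine le_trans ?_ (hb ▸ (two_pow_b (kb := kb) hN2).2)
    exact Nat.mul_le_mul (Nat.pow_le_pow_right (by omega) hkb : 2 ^ 2 ≤ 2 ^ kb)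
      (Nat.le_self_pow (by omega) _)
  rw [← hb] at hR h1 h2 ⊢
  rw [← hj] at hR h3 ⊢
  have j1 : j < 2 ^ j := Nat.lt_two_pow_self
  have j2 : b < 2 ^ b := Nat.lt_two_pow_self
  have j3 : 2 ^ j * 2 ≤ 2 ^ j * N := Nat.mul_le_mul_left _ hN2
  have j4 := (ee_le p q N).trans (size_le_self N)
  have j5 : 2 ^ ee p q N ≤ 2 * N :=
    (Nat.pow_le_pow_right (by omega) (ee_le p q N)).trans (two_pow_size_le (by omega))
  have j6 : j + N ≤ 2 ^ j * N := by nlinarith
  unfold shell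
  refine Vt.tbind' ?_
  simp only [Tri_ofListP, ← ha, L.encode_zero, a1, show n + 2 * G.edgeSet.ncard / 2 + 2 = N by omega]
  refine ⟨by omega, Vt.num_bind (by omega) ?_⟩
  rw [← hb, ← hj]
  refine Vt.num_bind (by omega) (Vt.num_bind (by omega) (Vt.tbind' ?_))
  simp only [Tri_pow2, Nat.zero_add]
  refine ⟨by omega, Vt.num_bind (by omega) ?_⟩
  refine Vt.tbind (cn := true) (gadP_tri (natAdj_gr G) hC a0 (by simp only; omega)) ?_
  rintro ⟨own, rev, n', adj⟩ t1 ⟨c1, c2, c3, c4⟩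
  simp only at c1 c2 c3 ⊢
  rw [← c2] at c3
  have d0 : n' + 1 ≤ 4 * N := by omega
  refine (levels_vt (X := (n' + 1) * g b * (2 ^ ee p q N * 2 ^ (3 * p + 1))) hp c3 (by omega) h1
    (by omega) hR (hR.le.trans (Nat.pow_le_pow_right (by omega) (by omega))) fun i e1 e2 =>
    hT _ _ _ _ (by omega) Nat.one_le_two_pow e2 (cost_pow hq d0 (by omega))).bind ?_
  rintro mt t2 ⟨d1, d2, d3⟩
  rw [c2] at d1 d2
  refine Vt.tbind (cn := true) (downP_tri c1 a0 (by simp only; omega) d1 d2) ?_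
  rintro m t3 ⟨e1, ⟨f, e2, e3, e4⟩, e5⟩
  have k1 : 500 * (n + 2 * G.edgeSet.ncard + 2) ^ 3 ≤ B := by
    calc _ ≤ 500 * (2 * N) ^ 3 := Nat.mul_le_mul_left _ (Nat.pow_le_pow_left (by omega) _)
      _ = 4000 * N ^ 3 := by ring
      _ ≤ B := h4
  refine Vt.of_tri (cn := true) ((finish_tri (g := min (2 ^ (j + ee p q N)) n) L ha' e1 e2 e3
    (fun f' hf => ?_) k1).mono fun out t4 ⟨f1, f2⟩ => ⟨f1, ?_⟩)
  · have := e4 f' hf
    have : (exposed n f).card ≤ n := (Finset.card_filter_le _ _).trans (by simp)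
    omega
  · have g1 : Nat.size n' ≤ lg N := by
      refine Nat.size_le.2 ?_
      have := Nat.lt_size_self N
      rw [lg, pow_add]
      omega
    have g2 : Nat.log 2 n ≤ n := Nat.log_le_self 2 n
    have g3 : Nat.log 2 n + 1 ≤ lg N := by
      have := Nat.log_lt_of_lt_pow' (b := 2) (x := Nat.size N) (y := n)
        (by have := two_le_size hN2; omega) (by have := Nat.lt_size_self N; omega)
      unfold lg
      omega
    have g4 := size_le_self n'
    have := time_le (N := N) (n := n') (R := 2 ^ j) (E := 2 ^ ee p q N) (c := 2 ^ (3 * p + 1))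
      (l := lg N) (i := Nat.size n' - (j + ee p q N)) (x := g b)
      (u := min (2 ^ (j + ee p q N)) n) (y := Nat.log 2 n + 1) hN2 d0 (by omega)
      Nat.one_le_two_pow j5 Nat.one_le_two_pow (by have := two_le_lg N; omega) (by omega) (by omega)
      (fun e => (Nat.lt_size.1 (by omega : j < Nat.size n')).trans (by omega)) hR.le
      (by rw [← pow_add]; exact min_le_left _ _) (by omega) g3 (by omega)
    have g5 : (min (2 ^ (j + ee p q N)) n + 1) * (400 * ((Nat.log 2 n + 1) *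
        (n + 2 * G.edgeSet.ncard + 1))) ≤ (min (2 ^ (j + ee p q N)) n + 1) *
        (400 * ((Nat.log 2 n + 1) * (2 * N))) := by gcongr; omega
    omega

/-- **Phases of cost `(n / K) ^ (p / q)` give the exponent `1 + p / (p + q)`.** -/
theorem stage {ph : ℕ → ℕ → ℕ → Arr (List ℕ) → Arr ℕ → M (Arr ℕ)} {k : ℕ} {g : ℕ → ℕ}
    {T : ℕ → ℕ → ℕ → ℕ} (hp : PhaseOK ph k g T) {p q : ℕ} (hq : 0 < q) (hT : PowCost g p q T) :
    ∃ (P : RProg) (T' : ℕ → ℕ → ℕ), PowTime (1 + p / (p + q)) T' ∧ RandSolves P T' := by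
  obtain ⟨kb, hkb⟩ : ∃ kb, kb = 3 * p + 17 := ⟨_, rfl⟩
  obtain ⟨cR, hR⟩ := ((hp.sub kb).add (Sub.const 1)).exists_lin
  have hs : Sub fun N => 2 ^ (cR * sb N) := Sub.two_pow (Lin.sb.const_mul cR)
  obtain ⟨P, T', g', h1, h2, h3⟩ := top_fuel (shell ph kb cR p q) (impl_shell hp.impl kb cR p q)
    ((3 * kb + 1) * (k + 1) + cR + 15) _ (grow_ee p q) (fun N => ee_pow) _
    ((Sub.const 10).mul (((Sub.const (2000 * 2 ^ (3 * p + 1))).mul Sub.lg).mul (hs.pow 2)))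
    fun n G L => by
      obtain ⟨N, hN⟩ : ∃ N, N = n + G.edgeSet.ncard + 2 := ⟨_, rfl⟩
      rw [← hN]
      have h2 : 2 ≤ N := by omega
      have e1 := two_pow_b (kb := kb) h2
      have up : ∀ {x : ℕ}, x ≤ (3 * kb + 1) * (k + 1) + cR + 15 →
          N ^ x ≤ N ^ ((3 * kb + 1) * (k + 1) + cR + 15) := Nat.pow_le_pow_right (by omega)
      refine (pr_mono fun out t e => ?_).trans (pr_of_vt (shell_vt hp hq hT (kb := kb) (cR := cR) L
        hN (by omega) (hR N h2) ?_ ?_ ?_ ?_) ?_ (by have := two_le_lg N; positivity))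
      · refine fun x => e ⟨x.1, x.2.trans (le_of_eq (by ring))⟩
      · rw [mul_comm k, pow_mul]
        refine (Nat.pow_le_pow_left e1.1 k).trans ?_
        rw [← pow_mul]
        exact up (by nlinarith)
      · exact (Nat.pow_le_pow_right (by omega) (by omega)).trans (e1.1.trans (up (by nlinarith)))
      · rw [mul_comm cR, pow_mul]
        refine (Nat.mul_le_mul_right _ (Nat.pow_le_pow_left (two_pow_sb_le h2) _)).trans ?_
        rw [← pow_succ]
        exact up (by omega)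
      · refine le_trans ?_ (up (x := 12 + 3) (by omega))
        rw [pow_add]
        exact Nat.mul_le_mul_right _ (le_trans (by norm_num) (Nat.pow_le_pow_left h2 12))
      · refine le_trans ?_ e1.2
        calc _ = 50000 * 2 ^ (3 * p + 1) * N ^ 5 := by ring
          _ ≤ 2 ^ 16 * 2 ^ (3 * p + 1) * N ^ kb := Nat.mul_le_mul (Nat.mul_le_mul_right _
              (by norm_num)) (Nat.pow_le_pow_right (by omega) (by omega))
          _ = _ := by rw [← pow_add, hkb]; congr 2; omega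
  exact ⟨P, T', powTime_of hq h1 h2, h3⟩

/-- **Phases of almost-linear cost give an almost-linear algorithm.** -/
theorem full {ph : ℕ → ℕ → ℕ → Arr (List ℕ) → Arr ℕ → M (Arr ℕ)} {k : ℕ} {g : ℕ → ℕ}
    (hp : PhaseOK ph k g fun b n _ => (n + 1) * g b) :
    ∃ (P : RProg) (T : ℕ → ℕ → ℕ), AlmostLin T ∧ RandSolves P T := by
  obtain ⟨P, T, h1, h2⟩ := stage hp (p := 0) (q := 1) one_pos fun b n K W _ _ _ e =>
    Nat.le_mul_of_pos_right _ (by simp at e; omega)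
  exact ⟨P, T, by simpa [PowTime, AlmostLin] using h1, h2⟩

end Vale.Agent.P305O
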